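import Vale.Agent.P307C.Defs

/-! Proof-side definitions. -/

open Cardinal FirstOrder Set
open FirstOrder.Language.Structure

universe u

namespace Vale.Agent.P307C

open Vale.Agent.P307P

variable {L : FirstOrder.Language.{u, u}}

/-- placeholder argument kept from the pushout version -/
def HP (_K : AEC L) : Prop := True

/-- a distinguished square -/
structure PrePO (K : AEC L) [S : Amalg K] {W : Type u} [L.Structure W]
    (A B M P : L.Substructure W) : Prop where
  ab : Str K A B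
  am : Str K A M
  bp : Str K B P
  mp : Str K M P
  sq : S.Sq W A B M P

/-- a distinguished square with disjointness -/
def IsPO (K : AEC L) [Amalg K] {W : Type u} [L.Structure W] (A B M P : L.Substructure W) : Prop :=
  PrePO K A B M P ∧ B ⊓ M = A

/-- `c` and `c'` have the same type over `A`. -/
def Eqv (K : AEC L) (θ : Cardinal.{u}) {W : Type u} [L.Structure W] (A : L.Substructure W)
    (c c' : W) : Prop :=
  ∃ (φ : W → W) (B B' : L.Substructure W), Str K B ⊤ ∧ Str K B' ⊤ ∧ #B ≤ θ ∧ A ≤ B ∧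
    IsoOn φ B B' ∧ EqOn φ id A ∧ c ∈ B ∧ φ c = c'

/-- `c` is free from `M` over `A`. -/
def Free (K : AEC L) [Amalg K] (θ : Cardinal.{u}) {W : Type u} [L.Structure W]
    (A M : L.Substructure W) (c : W) : Prop :=
  ∃ B P : L.Substructure W, IsPO K A B M P ∧ Str K P ⊤ ∧ #P ≤ θ ∧ c ∈ B

/-- a monster model for the size `θ` -/
structure Mon (K : AEC L) (l θ : Cardinal.{u}) (W : Type u) [L.Structure W] : Prop where
  ls : K.LSBound l
  po : HP K
  le : l ≤ θ
  mem : K.Mem W
  big : θ < #W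
  univ : UnivIn K (⊤ : L.Substructure W) θ

/-- the standing hypotheses -/
structure Ctx (K : AEC L) (l : Cardinal.{u}) : Prop where
  ls : K.LSBound l
  po : HP K
  unb : ∀ c : Cardinal.{u}, ∃ k, c ≤ k ∧ K.Categorical k

/-- a minimal type -/
structure IsMin (K : AEC L) [Amalg K] (θ ρ : Cardinal.{u}) {W : Type u} [L.Structure W]
    (A : L.Substructure W) (c : W) : Prop where
  str : Str K A ⊤
  card : #A = ρ
  nmem : c ∉ A
  free : ∀ M : L.Substructure W, A ≤ M → Str K M ⊤ → #M = ρ → c ∉ M → Free K θ A M c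

/-- A tower over `G₀`, valid on the lower set `D`: at `x ∈ S` a free copy `B x` of `B₀` over `A`
is added to the stage `U x`, at `x ∉ S` nothing happens. -/
structure Tow (K : AEC L) [Amalg K] {W : Type u} [L.Structure W] {X : Type u} [LinearOrder X]
    (A B₀ G₀ : L.Substructure W) (D S : Set X) (B U Q : X → L.Substructure W) : Prop where
  low : IsLowerSet D
  ne : (A : Set W).Nonempty
  base : Str K A G₀
  top₀ : Str K G₀ ⊤
  cp : ∀ x ∈ D, x ∈ S → ∃ φ : W → W, IsoOn φ B₀ (B x) ∧ EqOn φ id A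
  po : ∀ x ∈ D, x ∈ S → IsPO K A (B x) (U x) (Q x)
  idle : ∀ x ∈ D, x ∉ S → Q x = U x
  top : ∀ x ∈ D, Str K (Q x) ⊤
  mem : ∀ x ∈ D, ∀ c, c ∈ U x ↔ c ∈ G₀ ∨ ∃ y, y < x ∧ c ∈ Q y

/-- finite towers of height `n` from `E` to `R` -/
def FT (K : AEC L) [Amalg K] {W : Type u} [L.Structure W] (A B₀ : L.Substructure W) :
    ℕ → L.Substructure W → L.Substructure W → Prop
  | 0, E, R => R = E
  | n + 1, E, R => ∃ (φ : W → W) (B' E' : L.Substructure W), IsoOn φ B₀ B' ∧ EqOn φ id A ∧
      IsPO K A B' E E' ∧ FT K A B₀ n E' R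

/-- the standard model `G`: the union of a full tower over `A` inside a monster -/
structure Std (K : AEC L) [Amalg K] (l θ : Cardinal.{u}) {W : Type u} [L.Structure W] {X : Type u}
    [LinearOrder X] (A B₀ G : L.Substructure W) (B U Q : X → L.Substructure W) : Prop where
  mon : Mon K l θ W
  tow : Tow K A B₀ A univ univ B U Q
  ab : Str K A B₀
  small : #B₀ ≤ l
  mem : ∀ c, c ∈ G ↔ c ∈ A ∨ ∃ x, c ∈ Q x
  top : Str K G ⊤
  card : #G ≤ θ
  idx : #X ≤ θ

/-- `E` is closed in the standard model, with the index set `T` -/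
structure Cl (K : AEC L) [Amalg K] {W : Type u} [L.Structure W] {X : Type u}
    (A G : L.Substructure W) (U Q : X → L.Substructure W) (E : L.Substructure W) (T : Set X) :
    Prop where
  le : A ≤ E
  str : Str K E G
  act : ∀ x ∈ T, IsPO K (E ⊓ U x) (E ⊓ Q x) (U x) (Q x)
  idle : ∀ x, x ∉ T → E ⊓ Q x = E ⊓ U x

theorem Mon.inf {K : AEC L} {l θ : Cardinal.{u}} {W : Type u} [L.Structure W] (h : Mon K l θ W) :
    ℵ₀ ≤ θ := h.ls.inf.trans h.le

theorem Mon.nonempty {K : AEC L} {l θ : Cardinal.{u}} {W : Type u} [L.Structure W]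
    (h : Mon K l θ W) : Nonempty W :=
  Cardinal.mk_ne_zero_iff.1 (ne_of_gt (lt_of_le_of_lt (zero_le) h.big))

end Vale.Agent.P307C
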