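import Vale.Agent.P307C.Po

/-! Closing a small set. Choose `H x t` from `unb` (total by `choose!` or `dite`). Put `t 0 = s`,
`T n = T₀ ∪ ⋃ c ∈ t n, r c`, `t (n+1) = t n ∪ ⋃ x ∈ T n, H x (t n ∩ P x)`; all have size at most `ρ`
(`mk_biUnion_le`, `card_union_le`); `t = ⋃ n, t n`, `T = ⋃ n, T n`. For `x ∈ T n₀` the sequence
`E n = H x (t (n₀ + n) ∩ P x)` is monotone (`E n ⊆ t (n₀+n+1) ∩ P x ⊆ E (n+1)`), `mem_iSup_nat`. -/

open Cardinal FirstOrder Set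
open FirstOrder.Language.Structure

universe u

namespace Vale.Agent.P307C

open Vale.Agent.P307P

variable {L : FirstOrder.Language.{u, u}} {K : AEC L} [Amalg K] {l θ : Cardinal.{u}}
  {W W' W'' : Type u} [L.Structure W] [L.Structure W'] [L.Structure W'']

theorem om_bi {α β : Type u} {ρ : Cardinal.{u}} (hρ : ℵ₀ ≤ ρ) {s : Set α} {A : α → Set β}
    (hs : #s ≤ ρ) (hA : ∀ x, #(A x) ≤ ρ) : #(⋃ x ∈ s, A x) ≤ ρ :=
  (mk_biUnion_le A s).trans (mul_le_of_le hρ hs (ciSup_le' fun x => hA x.1))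

theorem om_nat {β : Type u} {ρ : Cardinal.{u}} (hρ : ℵ₀ ≤ ρ) {A : ℕ → Set β}
    (hA : ∀ n, #(A n) ≤ ρ) : #(⋃ n, A n) ≤ ρ := by
  have e : ⋃ n, A n = ⋃ x ∈ (univ : Set (ULift.{u} ℕ)), A x.down := by
    rw [biUnion_univ]
    exact (Equiv.ulift.surjective.iUnion_comp A).symm
  rw [e]
  exact om_bi hρ (by simpa using hρ) fun x => hA x.down

theorem om_un {β : Type u} {ρ : Cardinal.{u}} (hρ : ℵ₀ ≤ ρ) {s t : Set β} (hs : #s ≤ ρ)
    (ht : #t ≤ ρ) : #(s ∪ t : Set β) ≤ ρ :=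
  (mk_union_le _ _).trans (add_le_of_le hρ hs ht)

theorem omega_cl {X : Type u} {ρ : Cardinal.{u}} (hρ : ℵ₀ ≤ ρ) (P : X → L.Substructure W)
    (G : X → L.Substructure W → Prop) (r : W → Set X) (hr : ∀ c, #(r c) ≤ ρ)
    (unb : ∀ x (t : Set W), t ⊆ P x → #t ≤ ρ →
      ∃ E : L.Substructure W, G x E ∧ t ⊆ E ∧ E ≤ P x ∧ #E ≤ ρ)
    (cl : ∀ x (E : ℕ → L.Substructure W), Monotone E → (∀ n, G x (E n)) → G x (⨆ n, E n))
    (T₀ : Set X) (hT : #T₀ ≤ ρ) (s : Set W) (hs : #s ≤ ρ) :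
    ∃ (t : Set W) (T : Set X), s ⊆ t ∧ #t ≤ ρ ∧ T₀ ⊆ T ∧ #T ≤ ρ ∧ (∀ c ∈ t, r c ⊆ T) ∧
      (∀ x ∈ T, x ∈ T₀ ∨ ∃ c ∈ t, x ∈ r c) ∧ (∀ c ∈ t, c ∈ s ∨ ∃ x ∈ T, c ∈ P x) ∧
      ∀ x ∈ T, ∃ E : L.Substructure W, G x E ∧ (E : Set W) = t ∩ P x := by
  choose! H h1 h2 h3 h4 using unb
  let T : Set W → Set X := fun u => T₀ ∪ ⋃ c ∈ u, r c
  have hTc : ∀ u : Set W, #u ≤ ρ → #(T u) ≤ ρ := fun u hu => om_un hρ hT (om_bi hρ hu hr)
  have hTm : ∀ u v : Set W, u ⊆ v → T u ⊆ T v := fun u v h =>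
    union_subset_union_right _ (biUnion_subset_biUnion_left h)
  have hi : ∀ (u : Set W) x, #u ≤ ρ → #(u ∩ P x : Set W) ≤ ρ := fun u x hu =>
    (mk_le_mk_of_subset inter_subset_left).trans hu
  let t : ℕ → Set W := fun n =>
    Nat.rec s (fun _ u => u ∪ ⋃ x ∈ T u, (H x (u ∩ P x) : Set W)) n
  have ts : ∀ n, t (n + 1) = t n ∪ ⋃ x ∈ T (t n), (H x (t n ∩ P x) : Set W) := fun n => rfl
  have tc : ∀ n : ℕ, #↥(t n) ≤ ρ := fun n => by
    induction n with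
    | zero => exact hs
    | succ n ih =>
      exact om_un hρ ih (om_bi hρ (hTc _ ih) fun x => h4 x _ inter_subset_right (hi _ x ih))
  have tm : Monotone t := monotone_nat_of_le_succ fun n => subset_union_left
  have tU : ∀ n, t n ⊆ ⋃ n, t n := subset_iUnion t
  have tc' := om_nat hρ tc
  refine ⟨⋃ n, t n, T (⋃ n, t n), tU 0, tc', subset_union_left, hTc _ tc',
    fun c hc => (subset_biUnion_of_mem (u := r) hc).trans subset_union_right,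
    fun x hx => hx.imp id fun h => ?_, fun c hc => ?_, fun x hx => ?_⟩
  · obtain ⟨c, a, b⟩ := mem_iUnion₂.1 h
    exact ⟨c, a, b⟩
  · obtain ⟨n, hn⟩ := mem_iUnion.1 hc
    clear hc
    induction n with
    | zero => exact Or.inl hn
    | succ n ih =>
      rcases hn with hn | hn
      · exact ih hn
      · obtain ⟨x, a, b⟩ := mem_iUnion₂.1 hn
        exact Or.inr ⟨x, hTm _ _ (tU n) a, h3 x _ inter_subset_right (hi _ x (tc n)) b⟩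
  · obtain ⟨m, hm⟩ : ∃ m, x ∈ T (t m) := by
      rcases hx with hx | hx
      · exact ⟨0, Or.inl hx⟩
      · obtain ⟨c, a, b⟩ := mem_iUnion₂.1 hx
        obtain ⟨n, hn⟩ := mem_iUnion.1 a
        exact ⟨n, Or.inr (mem_iUnion₂.2 ⟨c, hn, b⟩)⟩
    have e1 : ∀ n, (H x (t (m + n) ∩ P x) : Set W) ⊆ t (m + n + 1) ∩ P x := fun n c hc =>
      ⟨Or.inr (mem_iUnion₂.2 ⟨x, hTm _ _ (tm (Nat.le_add_right m n)) hm, hc⟩),
        h3 x _ inter_subset_right (hi _ x (tc _)) hc⟩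
    have e2 : ∀ n, t n ∩ P x ⊆ H x (t n ∩ P x) := fun n =>
      h2 x _ inter_subset_right (hi _ x (tc n))
    have e3 : Monotone fun n => H x (t (m + n) ∩ P x) :=
      monotone_nat_of_le_succ fun n => (e1 n).trans (e2 (m + n + 1))
    refine ⟨_, cl x _ e3 fun n => h1 x _ inter_subset_right (hi _ x (tc _)),
      Set.ext fun c => (mem_iSup_nat _ e3 c).trans ⟨fun ⟨n, hn⟩ => ?_, fun hc => ?_⟩⟩
    · exact ⟨tU (m + n + 1) (e1 n hn).1, (e1 n hn).2⟩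
    · obtain ⟨n, hn⟩ := mem_iUnion.1 hc.1
      exact ⟨n, e2 _ ⟨tm (Nat.le_add_left n m) hn, hc.2⟩⟩

end Vale.Agent.P307C
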