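import Vale.Agent.P307C.RecC

/-! A resolution of a model by smaller models. Enumerate `M` by `e : (#M).ord.ToType ≃ M`
(`Cardinal.mk_ord_toType`, `Cardinal.eq`); `rec_chain` on pairs `(U x, Q x)`: `U x` is `A` if `Iio x` is empty and
`⨆ y : Iio x, Q y` otherwise, `Q x` is a hull (`exists_str_ls`) of `U x ∪ {e x}` of size at most
`max #(Iio x) (max #A l)`; `card_iSup_le`, `Cardinal.mk_Iio_ord_toType`. -/

open Cardinal FirstOrder Set
open FirstOrder.Language.Structure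

universe u

namespace Vale.Agent.P307C

open Vale.Agent.P307P

variable {L : FirstOrder.Language.{u, u}} {K : AEC L} [Amalg K] {l θ : Cardinal.{u}}
  {W W' W'' : Type u} [L.Structure W] [L.Structure W'] [L.Structure W'']

omit [Amalg K] in
theorem exists_res (hl : K.LSBound l) {A M : L.Substructure W} (hAM : Str K A M) (hA : #A < #M)
    (hlM : l < #M) : ∃ U Q : (#M).ord.ToType → L.Substructure W,
      (∀ x, Str K (Q x) M ∧ #(Q x) < #M ∧ U x ≤ Q x ∧
        ∀ c, c ∈ U x ↔ c ∈ A ∨ ∃ y, y < x ∧ c ∈ Q y) ∧ ∀ c ∈ M, ∃ x, c ∈ Q x := by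
  classical
  obtain ⟨e⟩ : Nonempty ((#M).ord.ToType ≃ M) := Cardinal.eq.1 (mk_ord_toType _)
  haveI : Nonempty (L.Substructure W) := ⟨A⟩
  obtain ⟨Q, hQ, hR, -⟩ := rec_chain (α := L.Substructure W) (ι := (#M).ord.ToType)
    (fun x Q => Str K Q M ∧ #Q ≤ max #(Iio x) (max #A l) ∧ A ≤ Q ∧ (e x : W) ∈ Q)
    (fun _ _ P Q => P ≤ Q) (fun _ _ _ => True) (fun x r hr _ => by
      have hn : l ≤ max #(Iio x) (max #A l) := le_max_of_le_right (le_max_right _ _)
      have hi : ℵ₀ ≤ max #(Iio x) (max #A l) := hl.inf.trans hn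
      have h1 : #(⋃ y : Iio x, (r y : Set W)) ≤ max #(Iio x) (max #A l) := by
        refine mk_iUnion_le_sum_mk.trans ((sum_le_sum _ (fun _ => max #(Iio x) (max #A l))
          fun y => (hr y).2.1.trans (max_le_max (mk_le_mk_of_subset (Iio_subset_Iio y.2.le))
            le_rfl)).trans ?_)
        rw [sum_const']
        exact (mul_le_mul' (le_max_left _ _) le_rfl).trans_eq (mul_eq_self hi)
      obtain ⟨B, h2, h3, h4⟩ := exists_str_ls hl hn hAM.mem_right
        ((A : Set W) ∪ ({(e x : W)} ∪ ⋃ y : Iio x, (r y : Set W)))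
        (union_subset hAM.le (union_subset (singleton_subset_iff.2 (e x).2)
          (iUnion_subset fun y => (hr y).1.le)))
        (card_union_le hi (le_max_of_le_right (le_max_left _ _))
          (card_union_le hi ((mk_singleton _).trans_le (one_le_aleph0.trans hi)) h1))
      exact ⟨B, ⟨h2, h4, fun c hc => h3 (Or.inl hc), h3 (Or.inr (Or.inl rfl))⟩,
        fun y c hc => h3 (Or.inr (Or.inr (mem_iUnion.2 ⟨y, hc⟩))), trivial⟩)
  have hm : Monotone Q := fun x y h => h.eq_or_lt.elim (fun e => e ▸ le_rfl) (hR x y)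
  have hU : ∀ x c, c ∈ (if Nonempty (Iio x) then ⨆ y : Iio x, Q y else A) ↔
      c ∈ A ∨ ∃ y, y < x ∧ c ∈ Q y := by
    intro x c
    by_cases h : Nonempty (Iio x)
    · rw [if_pos h, mem_iSup_mono (fun y : Iio x => Q y) fun y z hyz => hm hyz]
      obtain ⟨y₀⟩ := h
      exact ⟨fun ⟨y, hy⟩ => Or.inr ⟨y, y.2, hy⟩, fun h => h.elim
        (fun h => ⟨y₀, (hQ y₀).2.2.1 h⟩) fun ⟨y, h1, h2⟩ => ⟨⟨y, h1⟩, h2⟩⟩
    · rw [if_neg h]
      exact ⟨Or.inl, fun h' => h'.elim id fun ⟨y, h1, _⟩ => absurd ⟨⟨y, h1⟩⟩ h⟩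
  refine ⟨fun x => if Nonempty (Iio x) then ⨆ y : Iio x, Q y else A, Q, fun x =>
    ⟨(hQ x).1, (hQ x).2.1.trans_lt (max_lt (mk_Iio_ord_toType x) (max_lt hA hlM)), fun c hc => ?_,
      hU x⟩, fun c hc => ⟨e.symm ⟨c, hc⟩, ?_⟩⟩
  · rcases (hU x c).1 hc with h | ⟨y, h1, h2⟩
    · exact (hQ x).2.2.1 h
    · exact hm h1.le h2
  · have := (hQ (e.symm ⟨c, hc⟩)).2.2.2
    rwa [e.apply_symm_apply] at this

end Vale.Agent.P307C
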