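import Vale.Agent.P307C.Res
import Vale.Agent.P307C.Res0
import Vale.Agent.P307C.Om

/-! Reflection of a square with a small side. Strong induction on the cardinal `#M`
(for all `M P s`). If `#M ≤ ρ` take `M' = M`, `E = P` (`PrePO.card_le`, `isPO_refl`). Otherwise `exists_res`, `IsPO.res` with
`D = univ`; squares `A B (Q x) (R x)` by pasting; `R` is monotone. `omega_cl` with `P := R`, `r := fun _ => ∅`,
`G x E := IsPO K A B (E ⊓ Q x) E ∧ IsPO K (E ⊓ Q x) E (Q x) (R x)` (`unb` = induction hypothesis, the corner is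
`E ⊓ Q x` by `.2`; `cl` = `IsPO.chain_nat` with `N := R x`, constant families, corner again by `.2`), start set `s ∪ B`,
`T₀` = one fixed index together with one index for every element of `s`. Then `T` is nonempty, `E x = t ∩ R x` is monotone
on the subtype `T`, `IsPO.chain` (with `N := P`) three times, paste. -/

open Cardinal FirstOrder Set
open FirstOrder.Language.Structure

universe u

namespace Vale.Agent.P307C

open Vale.Agent.P307P

variable {L : FirstOrder.Language.{u, u}} {K : AEC L} [Amalg K] {l θ : Cardinal.{u}}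
  {W W' W'' : Type u} [L.Structure W] [L.Structure W'] [L.Structure W'']

theorem small_cl {A B Q R : L.Substructure W} (E : ℕ → L.Substructure W) (hE : Monotone E)
    (h : ∀ n, IsPO K A B (E n ⊓ Q) (E n) ∧ IsPO K (E n ⊓ Q) (E n) Q R) :
    IsPO K A B ((⨆ n, E n) ⊓ Q) (⨆ n, E n) ∧ IsPO K ((⨆ n, E n) ⊓ Q) (⨆ n, E n) Q R := by
  have m : Monotone fun n => E n ⊓ Q := fun _ _ k => inf_le_inf_right _ (hE k)
  have h1 := IsPO.chain_nat (N := R) monotone_const monotone_const m hE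
    (fun n => (h n).2.1.bp) fun n => (h n).1
  have h2 := IsPO.chain_nat (N := R) m hE monotone_const monotone_const
    (fun n => str_refl (h n).2.1.bp.mem_right) fun n => (h n).2
  rw [iSup_const, iSup_const] at h1 h2
  rw [h2.2]
  exact ⟨h1, h2⟩

theorem small_lim {ι : Type u} [LinearOrder ι] [WellFoundedLT ι] [Nonempty ι]
    {A B M P : L.Substructure W} {E Q R : ι → L.Substructure W} (hE : Monotone E)
    (hQ : Monotone Q) (hR : Monotone R)
    (h : ∀ x, IsPO K A B (E x ⊓ Q x) (E x) ∧ IsPO K (E x ⊓ Q x) (E x) (Q x) (R x))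
    (h' : ∀ x, IsPO K (Q x) (R x) M P) :
    ∃ M' : L.Substructure W, IsPO K A B M' (⨆ x, E x) ∧ IsPO K M' (⨆ x, E x) M P := by
  have m : Monotone fun x => E x ⊓ Q x := fun _ _ k => inf_le_inf (hE k) (hQ k)
  have h1 := IsPO.chain (N := P) monotone_const monotone_const m hE
    (fun x => (h x).2.1.bp.trans (h' x).1.bp) fun x => (h x).1
  have h2 := IsPO.chain (N := P) m hE hQ hR (fun x => (h' x).1.bp) fun x => (h x).2
  have h3 := IsPO.chain (N := P) hQ hR monotone_const monotone_const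
    (fun x => str_refl (h' x).1.bp.mem_right) h'
  rw [iSup_const, iSup_const] at h1 h3
  exact ⟨_, h1, h2.paste h3⟩

theorem IsPO.small (hl : K.LSBound l) {ρ : Cardinal.{u}} (hρ : l ≤ ρ) {A B M P : L.Substructure W}
    (h : IsPO K A B M P) (hne : (A : Set W).Nonempty) (hB : #B ≤ ρ) (s : Set W) (hs : s ⊆ P)
    (hc : #s ≤ ρ) : ∃ M' E : L.Substructure W, #E ≤ ρ ∧ s ⊆ E ∧ IsPO K A B M' E ∧
      IsPO K M' E M P := by
  induction hκ : #M using WellFoundedLT.induction generalizing M P s with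
  | ind κ ih =>
  subst hκ
  rcases le_or_gt (#M) ρ with hM | hM
  · exact ⟨M, P, h.1.card_le hl hρ hB hM, hs, h, isPO_refl (hne.mono h.1.am.le) h.1.mp⟩
  have h0 : ℵ₀ ≤ ρ := hl.inf.trans hρ
  have : Nonempty (#M).ord.ToType := nonempty_ord_toType (h0.trans hM.le)
  obtain ⟨U, Q, hQ, hcov⟩ := exists_res hl h.1.am
    (((card_mono h.1.ab.le).trans hB).trans_lt hM) (hρ.trans_lt hM)
  obtain ⟨V, R, hV, hsq, hP⟩ := h.res hne isLowerSet_univ U Q (fun x _ => (hQ x).1)
    (fun x _ => (hQ x).2.2.1) fun x _ => (hQ x).2.2.2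
  have s1 : ∀ x, IsPO K A B (Q x) (R x) := fun x =>
    (hsq x trivial).1.paste (hsq x trivial).2.1
  have mQ : Monotone Q := fun y x k => k.lt_or_eq.elim
    (fun k c hc => (hQ x).2.2.1 (((hQ x).2.2.2 c).2 (Or.inr ⟨y, k, hc⟩))) fun k => (congrArg Q k).le
  have mR : Monotone R := fun y x k => k.lt_or_eq.elim
    (fun k c hc => (hsq x trivial).2.1.1.bp.le ((hV x trivial c).2 (Or.inr ⟨y, k, hc⟩)))
    fun k => (congrArg R k).le
  have c1 : ∀ c : (s ∪ B : Set W), ∃ x, c.1 ∈ R x := fun c => by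
    rcases hP (fun c hc => Or.inr ((hcov c hc).imp fun x hx => ⟨trivial, hx⟩)) c.1
      (c.2.elim (fun k => hs k) fun k => h.1.bp.le k) with k | ⟨x, -, k⟩
    · exact ⟨Classical.arbitrary _, (s1 _).1.bp.le k⟩
    · exact ⟨x, k⟩
  choose i hi using c1
  have c2 : #(s ∪ B : Set W) ≤ ρ := card_union_le h0 hc hB
  obtain ⟨t, T, t1, t2, t3, -, -, -, -, t4⟩ := omega_cl h0 R
    (fun x E => IsPO K A B (E ⊓ Q x) E ∧ IsPO K (E ⊓ Q x) E (Q x) (R x)) (fun _ => ∅)
    (fun _ => by simp) (fun x t ht hc => by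
      obtain ⟨M', E, e1, e2, e3, e4⟩ := ih _ (hQ x).2.1 (s1 x) t ht hc rfl
      refine ⟨E, ?_, e2, e4.1.bp.le, e1⟩
      rw [e4.2]
      exact ⟨e3, e4⟩)
    (fun x E hE hG => small_cl E hE hG) (range i) (mk_range_le.trans c2) _ c2
  obtain ⟨a, ha⟩ := hne
  have : Nonempty T := ⟨⟨i ⟨a, Or.inr (h.1.ab.le ha)⟩, t3 ⟨_, rfl⟩⟩⟩
  choose E hE hE' using fun x : T => t4 x.1 x.2
  have mE : Monotone E := fun y x k => by
    rw [← SetLike.coe_subset_coe, hE', hE']
    exact inter_subset_inter_right _ (mR k)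
  obtain ⟨M', q1, q2⟩ := small_lim mE (fun _ _ k => mQ k) (fun _ _ k => mR k) hE
    fun x => (hsq x.1 trivial).2.2
  refine ⟨M', _, ?_, fun c k => ?_, q1, q2⟩
  · refine (mk_le_mk_of_subset (s := ((⨆ x, E x : L.Substructure W) : Set W)) fun c k => ?_).trans t2
    obtain ⟨x, hx⟩ := (mem_iSup_mono E mE c).1 k
    exact ((hE' x).le hx).1
  · exact (mem_iSup_mono E mE c).2 ⟨⟨i ⟨c, Or.inl k⟩, t3 ⟨_, rfl⟩⟩,
      (hE' _).ge ⟨t1 (Or.inl k), hi _⟩⟩

end Vale.Agent.P307C
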