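import Vale.Agent.P307C.Tw0
import Vale.Agent.P307C.Small

/-! Closed submodels. `omega_cl` with the index type `Option (Option X)`: `none ↦ G` with `Str K E G`,
`some none ↦ N` with `Str K E N` (`exists_str_ls`, `str_nat_smooth`), `some (some x) ↦ Q x` with
`IsPO K (E ⊓ U x) E (U x) (Q x)` (`IsPO.small` for `h.tow.po x`, `#(B x) ≤ l` from `cp`; `IsPO.chain_nat`, corner by `.2`);
`r c = {some (some x) | c ∈ Q x ∧ c ∉ U x}` is a subsingleton (`Tow.QU`); `T₀ = {none, some none}`, start set `s ∪ A`.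
`E` is the model for `none` (`t ⊆ G`), `T` the set of `x` with `some (some x)` in the index set. -/

open Cardinal FirstOrder Set
open FirstOrder.Language.Structure

universe u

namespace Vale.Agent.P307C

open Vale.Agent.P307P

variable {L : FirstOrder.Language.{u, u}} {K : AEC L} [Amalg K] {l θ : Cardinal.{u}}
  {W W' W'' : Type u} [L.Structure W] [L.Structure W'] [L.Structure W'']
  {X : Type u} [LinearOrder X] [WellFoundedLT X] {A B₀ G₀ G E : L.Substructure W} {D S T : Set X}
  {B U Q : X → L.Substructure W}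

/-- the ambient models of the closure -/
def cl_P (G N : L.Substructure W) (Q : X → L.Substructure W) : Option (Option X) → L.Substructure W
  | none => G
  | some none => N
  | some (some x) => Q x

/-- the closure conditions -/
def cl_G (K : AEC L) [Amalg K] (G N : L.Substructure W) (U Q : X → L.Substructure W) :
    Option (Option X) → L.Substructure W → Prop
  | none, E => Str K E G
  | some none, E => Str K E N
  | some (some x), E => IsPO K (E ⊓ U x) E (U x) (Q x)

theorem Std.cl (h : Std K l θ A B₀ G B U Q) {ρ : Cardinal.{u}} (hρ : l ≤ ρ) {N : L.Substructure W}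
    (hN : Str K N G) (s : Set W) (hs : s ⊆ G) (hc : #s ≤ ρ) :
    ∃ (E : L.Substructure W) (T : Set X), Cl K A G U Q E T ∧ s ⊆ E ∧ #E ≤ ρ ∧
      Str K (E ⊓ N) N := by
  have hl := h.mon.ls
  have hi : ℵ₀ ≤ ρ := hl.inf.trans hρ
  have hA : #A ≤ ρ := (card_mono h.ab.le).trans (h.small.trans hρ)
  have hAG : A ≤ G := fun c hc => (h.mem c).2 (Or.inl hc)
  have hr : ∀ c : W, #({i | ∃ x, i = some (some x) ∧ c ∈ Q x ∧ c ∉ U x} : Set (Option (Option X))) ≤ ρ := by
    intro c
    refine le_trans (Cardinal.mk_le_one_iff_set_subsingleton.2 ?_) (Cardinal.one_le_aleph0.trans hi)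
    rintro _ ⟨x, rfl, hx, hx'⟩ _ ⟨y, rfl, hy, hy'⟩
    rcases lt_trichotomy x y with hxy | hxy | hxy
    · exact absurd (h.tow.QU (Set.mem_univ y) hxy hx) hy'
    · rw [hxy]
    · exact absurd (h.tow.QU (Set.mem_univ x) hxy hy) hx'
  have unb : ∀ i (t : Set W), t ⊆ cl_P G N Q i → #t ≤ ρ →
      ∃ E : L.Substructure W, cl_G K G N U Q i E ∧ t ⊆ E ∧ E ≤ cl_P G N Q i ∧ #E ≤ ρ := by
    rintro (_ | _ | x) t ht htc
    · obtain ⟨E, h1, h2, h3⟩ := exists_str_ls hl hρ hN.mem_right t ht htc
      exact ⟨E, h1, h2, h1.le, h3⟩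
    · obtain ⟨E, h1, h2, h3⟩ := exists_str_ls hl hρ hN.mem_left t ht htc
      exact ⟨E, h1, h2, h1.le, h3⟩
    · obtain ⟨φ, hφ, -⟩ := h.tow.cp x (Set.mem_univ x) (Set.mem_univ x)
      have hB : #(B x) ≤ ρ := hφ.card_eq.le.trans (h.small.trans hρ)
      obtain ⟨M', E, h1, h2, -, h4⟩ := (h.tow.po x (Set.mem_univ x) (Set.mem_univ x)).small hl hρ
        h.tow.ne hB t ht htc
      refine ⟨E, ?_, h2, h4.1.bp.le, h1⟩
      change IsPO K (E ⊓ U x) E (U x) (Q x)
      rw [h4.2]
      exact h4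
  have cl : ∀ i (E : ℕ → L.Substructure W), Monotone E → (∀ n, cl_G K G N U Q i (E n)) →
      cl_G K G N U Q i (⨆ n, E n) := by
    rintro (_ | _ | x) E hE hn
    · exact str_nat_smooth E hE hn
    · exact str_nat_smooth E hE hn
    · have h1 := IsPO.chain_nat (K := K) (A := fun n => E n ⊓ U x) (B := E) (M := fun _ => U x)
        (P := fun _ => Q x) (N := G) (fun a b hab => inf_le_inf_right _ (hE hab)) hE
        monotone_const monotone_const (fun _ => h.strQ x) hn
      rw [iSup_const, iSup_const] at h1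
      change IsPO K ((⨆ n, E n) ⊓ U x) (⨆ n, E n) (U x) (Q x)
      rw [h1.2]
      exact h1
  have hT : #({none, some none} : Set (Option (Option X))) ≤ ρ :=
    ((Set.toFinite _).countable.le_aleph0).trans hi
  obtain ⟨t, T, h1, h2, h3, -, h5, -, h7, h8⟩ := omega_cl hi (cl_P G N Q) (cl_G K G N U Q) _ hr unb cl
    {none, some none} hT (s ∪ A) (card_union_le hi hc hA)
  have htG : t ⊆ G := by
    intro c hc
    rcases h7 c hc with (h' | h') | ⟨_ | _ | x, -, h'⟩
    · exact hs h'
    · exact hAG h'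
    · exact h'
    · exact hN.le h'
    · exact (h.strQ x).le h'
  obtain ⟨E, hE, hEt⟩ := h8 none (h3 (Or.inl rfl))
  have hEt' : (E : Set W) = t := hEt.trans (Set.inter_eq_left.2 htG)
  have key : ∀ (i : Option (Option X)) (E' : L.Substructure W),
      (E' : Set W) = t ∩ cl_P G N Q i → E' = E ⊓ cl_P G N Q i := by
    intro i E' h'
    apply SetLike.coe_injective
    rw [h', ← hEt']
    rfl
  refine ⟨E, {x | some (some x) ∈ T}, ⟨?_, hE, ?_, ?_⟩, ?_, ?_, ?_⟩
  · intro c hc
    have : c ∈ (E : Set W) := hEt' ▸ h1 (Or.inr hc)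
    exact this
  · intro x hx
    obtain ⟨E', hE', h'⟩ := h8 _ hx
    have h9 : E' = E ⊓ Q x := key _ E' h'
    have h10 : IsPO K (E' ⊓ U x) E' (U x) (Q x) := hE'
    rw [h9, inf_assoc, inf_eq_right.2 (h.tow.UQ (Set.mem_univ x))] at h10
    exact h10
  · intro x hx
    refine le_antisymm ?_ (inf_le_inf_left _ (h.tow.UQ (Set.mem_univ x)))
    intro c hc
    refine ⟨hc.1, ?_⟩
    by_contra hU
    have hct : c ∈ t := hEt' ▸ hc.1
    exact hx (h5 c hct ⟨x, rfl, hc.2, hU⟩)
  · rw [hEt']
    exact fun c hc => h1 (Or.inl hc)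
  · have : #E = #t := by rw [← hEt']; rfl
    exact this.le.trans h2
  · obtain ⟨E', hE', h'⟩ := h8 (some none) (h3 (Or.inr rfl))
    have h9 : E' = E ⊓ N := key _ E' h'
    have h10 : Str K E' N := hE'
    rw [h9] at h10
    exact h10

end Vale.Agent.P307C
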