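import Vale.Agent.P307C.Cover0

/-! Building isomorphisms whose domain stays inside a given model. -/

open Cardinal FirstOrder Set
open FirstOrder.Language.Structure

universe u

namespace Vale.Agent.P307C

open Vale.Agent.P307P

variable {L : FirstOrder.Language.{u, u}} {K : AEC L} [Amalg K] {l θ : Cardinal.{u}}
  {W W' W'' : Type u} [L.Structure W] [L.Structure W'] [L.Structure W'']

/-- `rec_tasks` on triples `(φ, D, D')` with tasks `b : t`; chains by `isoOn_chain`,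
`str_chain_smooth`, `card_iSup_le` (monotonicity of the ranges from `IsoOn.congr`,
`IsoOn.le`). -/
theorem cover_rec {n : Cardinal.{u}} (hn : ℵ₀ ≤ n) {N D₀ D₀' : L.Substructure W} {φ₀ : W → W}
    (hφ : IsoOn φ₀ D₀ D₀') (hD : Str K D₀ N) (hD' : Str K D₀' ⊤) (hDc : #D₀ ≤ n) (t : Set W)
    (ht : #t ≤ n)
    (step : ∀ (φ : W → W) (D D' : L.Substructure W), IsoOn φ D D' → Str K D N → Str K D' ⊤ →
      #D ≤ n → D₀ ≤ D → EqOn φ₀ φ D₀ → ∀ b ∈ t,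
      ∃ (ψ : W → W) (D₁ D₁' : L.Substructure W), IsoOn ψ D₁ D₁' ∧ Str K D₁ N ∧ Str K D₁' ⊤ ∧
        #D₁ ≤ n ∧ D ≤ D₁ ∧ EqOn φ ψ D ∧ b ∈ D₁') :
    ∃ (ψ : W → W) (D₁ D₁' : L.Substructure W), IsoOn ψ D₁ D₁' ∧ Str K D₁ N ∧ Str K D₁' ⊤ ∧
      #D₁ ≤ n ∧ D₀ ≤ D₁ ∧ EqOn φ₀ ψ D₀ ∧ t ⊆ D₁' := by
  obtain ⟨⟨ψ, D₁, D₁'⟩, ⟨a1, a2, a3, a4⟩, ⟨a5, a6, -⟩, a7⟩ := rec_tasks
    (α := (W → W) × L.Substructure W × L.Substructure W) (ι := t)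
    (fun a => IsoOn a.1 a.2.1 a.2.2 ∧ Str K a.2.1 N ∧ Str K a.2.2 ⊤ ∧ #a.2.1 ≤ n)
    (fun a b => a.2.1 ≤ b.2.1 ∧ EqOn a.1 b.1 a.2.1 ∧ a.2.2 ≤ b.2.2) (fun i a => i.1 ∈ a.2.2)
    (φ₀, D₀, D₀') hn ht ⟨hφ, hD, hD', hDc⟩ (fun _ _ => ⟨le_rfl, fun _ _ => rfl, le_rfl⟩)
    (fun _ _ _ h h' => ⟨h.1.trans h'.1, fun _ hx => (h.2.1 hx).trans (h'.2.1 (h.1 hx)),
      h.2.2.trans h'.2.2⟩) (fun _ _ _ h h' => h'.2.2 h)
    (fun i a h h' => by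
      obtain ⟨ψ, D₁, D₁', b1, b2, b3, b4, b5, b6, b7⟩ :=
        step _ _ _ h.1 h.2.1 h.2.2.1 h.2.2.2 h'.1 h'.2.1 i.1 i.2
      exact ⟨(ψ, D₁, D₁'), ⟨b1, b2, b3, b4⟩, ⟨b5, b6, (h.1.congr b6).le b1 b5⟩, b7⟩)
    fun κ _ _ _ F hκ h h' => by
      have m1 : Monotone fun i => (F i).2.1 := fun i j e => (h' i j e).1
      have m2 : Monotone fun i => (F i).2.2 := fun i j e => (h' i j e).2.2
      obtain ⟨ψ, b1, b2⟩ := isoOn_chain (fun i => (F i).1) _ _ (fun i => (h i).1) m1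
        fun i j e => (h' i j e).2.1
      exact ⟨(ψ, _, _), ⟨b1, str_chain_smooth _ m1 fun i => (h i).2.1,
        str_chain_smooth _ m2 fun i => (h i).2.2.1,
        card_iSup_le _ m1 hn hκ fun i => (h i).2.2.2⟩,
        fun i => ⟨le_iSup (fun i => (F i).2.1) i, b2 i, le_iSup (fun i => (F i).2.2) i⟩⟩
  exact ⟨ψ, D₁, D₁', a1, a2, a3, a4, a5, a6, fun b hb => a7 ⟨b, hb⟩⟩

/-- From extension problems inside the monster to all extension problems: first use `h.univ`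
(`Str.trans` with `hN`), then `H` for the images. -/
theorem Mon.univIn_of_inner (h : Mon K l θ W) {n : Cardinal.{u}} (hnθ : n ≤ θ)
    {N : L.Substructure W} (hN : Str K N ⊤)
    (H : ∀ A B : L.Substructure W, Str K A N → Str K B ⊤ → A ≤ B → #B ≤ n →
      ∃ (ψ : W → W) (B' : L.Substructure W), IsoOn ψ B B' ∧ Str K B' N ∧ EqOn id ψ A) :
    UnivIn K N n := by
  intro V _ A B A' φ hAB hB hA' hφ
  obtain ⟨ψ, B', a1, a2, a3⟩ := h.univ V A B A' φ hAB (hB.trans hnθ) (hA'.trans hN) hφ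
  obtain ⟨χ, B'', b1, b2, b3⟩ := H A' B' hA' a2 ((hφ.congr a3).le a1 hAB.le) (a1.card_eq.trans_le hB)
  refine ⟨χ ∘ ψ, B'', b1.comp a1, b2, fun x hx => ?_⟩
  rw [Function.comp_apply, ← a3 hx]
  exact b3 (hφ.1.mapsTo hx)

/-- If `ψ : D₁ ≃ D₁'` fixes `A`, `D₁ ≤_K N` and `B ≤ D₁'`, the inverse restricted to `B` solves
the problem (`Str.coh`, `IsoOn.str`). -/
theorem inner_of_cover [Nonempty W] {N A B D₁ D₁' : L.Substructure W} {ψ : W → W}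
    (hψ : IsoOn ψ D₁ D₁') (h1 : Str K D₁ N) (h2 : Str K D₁' ⊤) (hB : Str K B ⊤) (hA : A ≤ D₁)
    (he : EqOn id ψ A) (hBD : B ≤ D₁') :
    ∃ (χ : W → W) (B' : L.Substructure W), IsoOn χ B B' ∧ Str K B' N ∧ EqOn id χ A := by
  obtain ⟨χ, a1, a2, -⟩ := hψ.exists_symm
  obtain ⟨B', b1, b2⟩ := a1.restrict hBD
  refine ⟨χ, B', b2, (a1.str b2 (hB.coh h2 hBD)).trans h1, fun x hx => ?_⟩
  have e : x = ψ x := he hx
  exact (a2 x (hA hx)).symm.trans (congrArg χ e.symm)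

end Vale.Agent.P307C
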