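import Vale.Agent.P307P.Base

/-! Amalgamation notions with prime amalgams. -/

open Cardinal FirstOrder Set

universe u

namespace Vale.Agent.P307C

open Vale.Agent.P307P

/-- A continuous amalgamation notion with prime amalgams on `K`. `Sq W A B M P` reads: inside the
ambient structure `W`, the model `P` is a canonical amalgam of `B` and `M` over `A`. -/
class Amalg {L : FirstOrder.Language.{u, u}} (K : AEC L) : Type (u + 1) where
  /-- the distinguished squares -/
  Sq : ∀ (W : Type u) [L.Structure W],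
    L.Substructure W → L.Substructure W → L.Substructure W → L.Substructure W → Prop
  /-- squares are disjoint amalgams of strong inclusions -/
  str : ∀ (W : Type u) [L.Structure W] (A B M P : L.Substructure W), Sq W A B M P →
    Str K A B ∧ Str K A M ∧ Str K B P ∧ Str K M P ∧ B ⊓ M = A
  /-- invariance under isomorphism -/
  iso : ∀ (W W' : Type u) [L.Structure W] [L.Structure W'] (A B M P : L.Substructure W)
    (A' B' M' P' : L.Substructure W') (φ : W → W'), IsoOn φ A A' → IsoOn φ B B' → IsoOn φ M M' →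
    IsoOn φ P P' → Sq W A B M P → Sq W' A' B' M' P'
  /-- existence -/
  ex : ∀ (M₀ M₁ M₂ : Type u) [L.Structure M₀] [L.Structure M₁] [L.Structure M₂]
    (f₁ : M₀ ↪[L] M₁) (f₂ : M₀ ↪[L] M₂),
    K.Strong M₁ f₁.toHom.range → K.Strong M₂ f₂.toHom.range →
    ∃ (P : Type u) (_ : L.Structure P) (g₁ : M₁ ↪[L] P) (g₂ : M₂ ↪[L] P),
      (∀ x, g₁ (f₁ x) = g₂ (f₂ x)) ∧
      Sq P (g₁.comp f₁).toHom.range g₁.toHom.range g₂.toHom.range ⊤
  /-- uniqueness up to isomorphism over the two sides -/
  uq : ∀ (W W' : Type u) [L.Structure W] [L.Structure W'] (A B M P : L.Substructure W)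
    (A' B' M' P' : L.Substructure W') (φ ψ : W → W'), Sq W A B M P → Sq W' A' B' M' P' →
    IsoOn φ A A' → IsoOn φ B B' → IsoOn ψ M M' → EqOn φ ψ A →
    ∃ χ : W → W', IsoOn χ P P' ∧ EqOn φ χ B ∧ EqOn ψ χ M
  /-- symmetry -/
  symm : ∀ (W : Type u) [L.Structure W] (A B M P : L.Substructure W), Sq W A B M P → Sq W A M B P
  /-- transitivity -/
  paste : ∀ (W : Type u) [L.Structure W] (A B M' P' M P : L.Substructure W),
    Sq W A B M' P' → Sq W M' P' M P → Sq W A B M P
  /-- continuity: closure under unions of chains -/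
  chain : ∀ (W : Type u) [L.Structure W] (ι : Type u) [LinearOrder ι] [WellFoundedLT ι]
    [Nonempty ι] (A B M P : ι → L.Substructure W), Monotone A → Monotone B → Monotone M →
    (∀ i j, i ≤ j → Str K (P i) (P j)) → (∀ i, Sq W (A i) (B i) (M i) (P i)) →
    Sq W (⨆ i, A i) (⨆ i, B i) (⨆ i, M i) (⨆ i, P i)
  /-- the amalgam is prime over the two sides -/
  prime : ∀ (W : Type u) [L.Structure W] (A B M P D N : L.Substructure W), Sq W A B M P →
    Str K P D → Str K N D → B ≤ N → M ≤ N →
    ∃ (χ : W → W) (P' : L.Substructure W), IsoOn χ P P' ∧ Str K P' N ∧ EqOn χ id B ∧ EqOn χ id M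

end Vale.Agent.P307C
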