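import Vale.Agent.P307C.Po

/-! Finite towers; inductions on `n` (generalising `E E' ψ`). `unique`: the map `φ' ∘ φ⁻¹ : B' ≃ B''` is the
identity on `A` (`IsoOn.exists_symm`), `PrePO.unique`. `ft_few`: for each `n` fix `R n` with `FT n E (R n)` if one exists; code
`c ∈ s` by `(n, χ c) ∈ Σ n, R n` (size at most `k`, use `ULift ℕ` or `⋃`/`sigma`); two elements with the same code give
`χ₂⁻¹ ∘ χ₁`. -/

open Cardinal FirstOrder Set
open FirstOrder.Language.Structure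

universe u

namespace Vale.Agent.P307C

open Vale.Agent.P307P

variable {L : FirstOrder.Language.{u, u}} {K : AEC L} [Amalg K] {l θ : Cardinal.{u}}
  {W W' W'' : Type u} [L.Structure W] [L.Structure W'] [L.Structure W'']

variable {A B₀ E E' R R' : L.Substructure W} {n : ℕ}

theorem FT.str (h : FT K A B₀ n E R) (hE : K.Mem E) : Str K E R := by
  induction n generalizing E with
  | zero =>
    obtain rfl : R = E := h
    exact str_refl hE
  | succ n ih =>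
    obtain ⟨φ, B', E₁, -, -, h3, h4⟩ := h
    exact h3.1.mp.trans (ih h4 h3.1.mp.mem_right)

theorem FT.unique [Nonempty W] (hAB : A ≤ B₀) (h : FT K A B₀ n E R) (h' : FT K A B₀ n E' R')
    {ψ : W → W} (hψ : IsoOn ψ E E') (hA : EqOn ψ id A) :
    ∃ χ : W → W, IsoOn χ R R' ∧ EqOn ψ χ E := by
  induction n generalizing E E' ψ with
  | zero =>
    obtain rfl : R = E := h
    obtain rfl : R' = E' := h'
    exact ⟨ψ, hψ, fun _ _ => rfl⟩
  | succ n ih =>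
    obtain ⟨φ, B', E₁, h1, h2, h3, h4⟩ := h
    obtain ⟨φ', B'', E₂, g1, g2, g3, g4⟩ := h'
    obtain ⟨σ, s1, s2, -⟩ := h1.exists_symm
    have e : EqOn id (φ' ∘ σ) A := fun a ha => by
      have e1 : σ a = a := by
        have e2 := s2 a (hAB ha)
        rwa [show φ a = a from h2 ha] at e2
      change a = φ' (σ a)
      rw [e1]
      exact (g2 ha).symm
    obtain ⟨χ₁, c1, -, c3⟩ := h3.1.unique g3.1 ((isoOn_id A).congr e) (g1.comp s1) hψ
      fun a ha => (e ha).symm.trans (hA ha).symm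
    obtain ⟨χ, d1, d2⟩ := ih h4 g4 c1 fun a ha => (c3 (h3.1.am.le ha)).symm.trans (hA ha)
    exact ⟨χ, d1, fun x hx => (c3 hx).trans (d2 (h3.1.mp.le hx))⟩

theorem FT.card (hl : K.LSBound l) {k : Cardinal.{u}} (hk : l ≤ k) (h : FT K A B₀ n E R)
    (hB : #B₀ ≤ k) (hE : #E ≤ k) : #R ≤ k := by
  induction n generalizing E with
  | zero =>
    obtain rfl : R = E := h
    exact hE
  | succ n ih =>
    obtain ⟨φ, B', E₁, h1, -, h3, h4⟩ := h
    exact ih h4 (h3.1.card_le hl hk (h1.card_eq.le.trans hB) hE)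

theorem ft_few [Nonempty W] (hl : K.LSBound l) {k : Cardinal.{u}} (hk : l ≤ k) (hAB : A ≤ B₀)
    (hB : #B₀ ≤ k) (hE : #E ≤ k) (hEm : K.Mem E) (p : L.Substructure W → Prop) (s : Set W)
    (hsc : k < #s) (hs : ∀ c ∈ s, ∃ (n : ℕ) (R : L.Substructure W), FT K A B₀ n E R ∧ p R ∧ c ∈ R) :
    ∃ c₁ ∈ s, ∃ c₂ ∈ s, c₁ ≠ c₂ ∧ ∃ (χ : W → W) (R₁ R₂ : L.Substructure W), IsoOn χ R₁ R₂ ∧
      p R₁ ∧ p R₂ ∧ E ≤ R₁ ∧ EqOn χ id E ∧ c₁ ∈ R₁ ∧ χ c₁ = c₂ := by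
  have h0 : ∀ n : ℕ, ∃ F : L.Substructure W, #F ≤ k ∧
      ∀ R, FT K A B₀ n E R → FT K A B₀ n E F := fun n => by
    by_cases h : ∃ R, FT K A B₀ n E R
    · obtain ⟨R, hR⟩ := h
      exact ⟨R, hR.card hl hk hB hE, fun _ _ => hR⟩
    · exact ⟨E, hE, fun R hR => (h ⟨R, hR⟩).elim⟩
  choose F hF hF' using h0
  have h1 : ∀ c : s, ∃ (n : ℕ) (R : L.Substructure W) (χ : W → W), p R ∧ c.1 ∈ R ∧ E ≤ R ∧
      IsoOn χ R (F n) ∧ EqOn id χ E := fun c => by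
    obtain ⟨n, R, r1, r2, r3⟩ := hs c.1 c.2
    obtain ⟨χ, c1, c2⟩ := r1.unique hAB (hF' n R r1) (isoOn_id E) fun _ _ => rfl
    exact ⟨n, R, χ, r2, r3, (r1.str hEm).le, c1, c2⟩
  choose m R χ r1 r2 r3 r4 r5 using h1
  let f : s → Σ n : ULift.{u} ℕ, F n.down :=
    fun c => ⟨⟨m c⟩, ⟨χ c c.1, (r4 c).1.mapsTo (r2 c)⟩⟩
  have hf : ¬Function.Injective f := fun hf => by
    have h2 := Cardinal.mk_le_of_injective hf
    rw [Cardinal.mk_sigma] at h2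
    have h3 := h2.trans (Cardinal.sum_le_sum _ (fun _ => k) fun n => hF n.down)
    rw [Cardinal.sum_const', Cardinal.mk_uLift, Cardinal.mk_nat, Cardinal.lift_aleph0,
      Cardinal.aleph0_mul_eq (hl.inf.trans hk)] at h3
    exact absurd hsc (not_lt.2 h3)
  obtain ⟨c₁, c₂, e, hne⟩ := Function.not_injective_iff.1 hf
  have e1 : m c₁ = m c₂ := congrArg (fun q : Σ n : ULift.{u} ℕ, F n.down => q.1.down) e
  have e2 : χ c₁ c₁.1 = χ c₂ c₂.1 :=
    congrArg (fun q : Σ n : ULift.{u} ℕ, F n.down => (q.2 : W)) e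
  obtain ⟨σ, s1, s2, -⟩ := (r4 c₂).exists_symm
  rw [← e1] at s1
  refine ⟨c₁.1, c₁.2, c₂.1, c₂.2, fun h => hne (Subtype.ext h), σ ∘ χ c₁, R c₁, R c₂,
    s1.comp (r4 c₁), r1 _, r1 _, r3 _, fun x hx => ?_, r2 _, ?_⟩
  · change σ (χ c₁ x) = x
    rw [show χ c₁ x = χ c₂ x from (r5 c₁ hx).symm.trans (r5 c₂ hx)]
    exact s2 x (r3 c₂ hx)
  · change σ (χ c₁ c₁.1) = c₂.1
    rw [e2]
    exact s2 _ (r2 c₂)

end Vale.Agent.P307C
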