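import Vale.Agent.P307C.RecC

/-! Resolving a square along a chain. `rec_chain` on pairs `(V x, R x)` with
`G x a := x ∈ D → (three squares)`, `R y x a b := x ∈ D → a.2 ≤ b.1`, `C x r a := x ∈ D → ∀ c, c ∈ a.1 ↔ …`.
Step: if `Iio x` is empty then `U x = A`, `V x = B` (`isPO_refl`, `h`). Otherwise `U x = ⨆ y : Iio x, Q y`,
`V x = ⨆ y : Iio x, R y`; `IsPO.chain` (with `N := P`, constant families, `iSup_const`) for the squares
`A B (Q y) (R y)` (paste of the first two) and `(Q y) (R y) M P`; then `IsPO.split trivial` at `Q x`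
(`Str.coh`). Last claim: the same limit step over the subtype `D` gives `IsPO M V M P`, use `IsPO.triv`
(if `D` is empty, `M = A`). `mem_iSup_mono` describes unions. -/

open Cardinal FirstOrder Set
open FirstOrder.Language.Structure

universe u

namespace Vale.Agent.P307C

open Vale.Agent.P307P

variable {L : FirstOrder.Language.{u, u}} {K : AEC L} [Amalg K] {l θ : Cardinal.{u}}
  {W W' W'' : Type u} [L.Structure W] [L.Structure W'] [L.Structure W'']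

theorem res_lim {ι : Type u} [LinearOrder ι] [WellFoundedLT ι] {A B M P U : L.Substructure W}
    (h : IsPO K A B M P) (hne : (A : Set W).Nonempty) (Q R : ι → L.Substructure W)
    (hQ : Monotone Q) (hR : Monotone R) (h1 : ∀ i, IsPO K A B (Q i) (R i))
    (h2 : ∀ i, IsPO K (Q i) (R i) M P) (hU : ∀ c, c ∈ U ↔ c ∈ A ∨ ∃ i, c ∈ Q i) :
    ∃ V : L.Substructure W, (∀ c, c ∈ V ↔ c ∈ B ∨ ∃ i, c ∈ R i) ∧ IsPO K A B U V ∧
      IsPO K U V M P := by
  rcases isEmpty_or_nonempty ι with hι | hι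
  · obtain rfl : U = A := SetLike.ext fun c => by simpa using hU c
    exact ⟨B, fun c => by simp, isPO_refl hne h.1.ab, h⟩
  · obtain ⟨i₀⟩ := id hι
    obtain rfl : U = ⨆ i, Q i := SetLike.ext fun c => by
      rw [hU, mem_iSup_mono Q hQ]
      exact ⟨fun hc => hc.elim (fun ha => ⟨i₀, (h1 i₀).1.am.le ha⟩) id, Or.inr⟩
    refine ⟨⨆ i, R i, fun c => ?_, ?_, ?_⟩
    · rw [mem_iSup_mono R hR]
      exact ⟨Or.inr, fun hc => hc.elim (fun ha => ⟨i₀, (h1 i₀).1.bp.le ha⟩) id⟩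
    · have h3 := IsPO.chain (A := fun _ => A) (B := fun _ => B) (N := P) monotone_const
        monotone_const hQ hR (fun i => (h2 i).1.bp) h1
      rwa [iSup_const, iSup_const] at h3
    · have h3 := IsPO.chain (M := fun _ => M) (P := fun _ => P) (N := P) hQ hR monotone_const
        monotone_const (fun _ => str_refl h.1.bp.mem_right) h2
      rwa [iSup_const, iSup_const] at h3

theorem res_mono {ι α : Type u} [LinearOrder ι] [Preorder α] {F : ι → α}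
    (h : ∀ i j, i < j → F i ≤ F j) : Monotone F := fun i j hij =>
  hij.eq_or_lt.elim (fun e => e ▸ le_rfl) (h i j)

theorem IsPO.res {X : Type u} [LinearOrder X] [WellFoundedLT X] {A B M P : L.Substructure W}
    (h : IsPO K A B M P) (hne : (A : Set W).Nonempty) {D : Set X} (hD : IsLowerSet D)
    (U Q : X → L.Substructure W) (hQ : ∀ x ∈ D, Str K (Q x) M) (hUQ : ∀ x ∈ D, U x ≤ Q x)
    (hU : ∀ x ∈ D, ∀ c, c ∈ U x ↔ c ∈ A ∨ ∃ y, y < x ∧ c ∈ Q y) :
    ∃ V R : X → L.Substructure W, (∀ x ∈ D, ∀ c, c ∈ V x ↔ c ∈ B ∨ ∃ y, y < x ∧ c ∈ R y) ∧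
      (∀ x ∈ D, IsPO K A B (U x) (V x) ∧ IsPO K (U x) (V x) (Q x) (R x) ∧
        IsPO K (Q x) (R x) M P) ∧
      ((∀ c ∈ M, c ∈ A ∨ ∃ x ∈ D, c ∈ Q x) → ∀ c ∈ P, c ∈ B ∨ ∃ x ∈ D, c ∈ R x) := by
  have hQm : ∀ y x, y < x → x ∈ D → Q y ≤ Q x := fun y x hy hx c hc =>
    hUQ x hx ((hU x hx c).2 (Or.inr ⟨y, hy, hc⟩))
  obtain ⟨F, hG, hR, hC⟩ := rec_chain (α := L.Substructure W × L.Substructure W) (ι := X)
    (fun x a => x ∈ D → IsPO K A B (U x) a.1 ∧ IsPO K (U x) a.1 (Q x) a.2 ∧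
      IsPO K (Q x) a.2 M P)
    (fun _ x a b => x ∈ D → a.2 ≤ b.1)
    (fun x r a => x ∈ D → ∀ c, c ∈ a.1 ↔ c ∈ B ∨ ∃ y : Iio x, c ∈ (r y).2) (by
      intro i r hg hr
      by_cases hi : i ∈ D
      · have hj : ∀ j : Iio i, (j : X) ∈ D := fun j => hD (le_of_lt j.2) hi
        obtain ⟨V, v1, v2, v3⟩ := res_lim (U := U i) h hne (fun j : Iio i => Q j)
          (fun j => (r j).2) (res_mono fun j k hjk => hQm j k hjk (hj k))
          (res_mono fun j k hjk => (hr j k hjk (hj k)).trans (hg k (hj k)).2.1.1.bp.le)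
          (fun j => (hg j (hj j)).1.paste (hg j (hj j)).2.1) (fun j => (hg j (hj j)).2.2)
          fun c => (hU i hi c).trans (or_congr_right
            ⟨fun ⟨y, hy, hc⟩ => ⟨⟨y, hy⟩, hc⟩, fun ⟨y, hc⟩ => ⟨y, y.2, hc⟩⟩)
        obtain ⟨R, r1, r2⟩ := v3.split trivial (hne.mono v2.1.am.le)
          (v3.1.am.coh (hQ i hi) (hUQ i hi)) (hQ i hi)
        exact ⟨(V, R), fun _ => ⟨v2, r1, r2⟩, fun j _ c hc => (v1 c).2 (Or.inr ⟨j, hc⟩),
          fun _ => v1⟩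
      · exact ⟨(B, B), fun h => absurd h hi, fun _ h => absurd h hi, fun h => absurd h hi⟩)
  refine ⟨fun x => (F x).1, fun x => (F x).2, fun x hx c => (hC x hx c).trans (or_congr_right
    ⟨fun ⟨y, hc⟩ => ⟨y, y.2, hc⟩, fun ⟨y, hy, hc⟩ => ⟨⟨y, hy⟩, hc⟩⟩), hG, fun hM c hc => ?_⟩
  obtain ⟨V, v1, -, v3⟩ := res_lim (U := M) h hne (fun j : D => Q j) (fun j => (F j).2)
    (res_mono fun j k hjk => hQm j k hjk k.2)
    (res_mono fun j k hjk => (hR j k hjk k.2).trans (hG k k.2).2.1.1.bp.le)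
    (fun j => (hG j j.2).1.paste (hG j j.2).2.1) (fun j => (hG j j.2).2.2) fun c =>
      ⟨fun hc => (hM c hc).imp id fun ⟨x, hx, hc⟩ => ⟨⟨x, hx⟩, hc⟩,
        fun hc => hc.elim (fun ha => h.1.am.le ha) fun ⟨x, hc⟩ => (hQ x x.2).le hc⟩
  rw [← v3.triv (hne.mono h.1.am.le), v1] at hc
  exact hc.imp id fun ⟨x, hc⟩ => ⟨x, x.2, hc⟩

end Vale.Agent.P307C
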