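import Vale.Agent.P307C.Tw0
import Vale.Agent.P307C.Res

/-! Finite support. Well-founded induction on `x`, for all towers. If `c ∈ U x` use `mem` (height `0`, or the
induction hypothesis and `Tow.mono`). Otherwise `x ∈ S`; split `po x` at `G₀`: `IsPO A (B x) G₀ E'`, `IsPO G₀ E' (U x) (Q x)`;
`IsPO.res` for the second square with `D := Iio x` gives `V R`, and `Tow K A B₀ E' (Iio x) S B V R`
(`po`: paste `po y` with the `symm` of the middle square; `idle`: `IsPO.triv`). Then `c ∈ E'` (height `1`) or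
`c ∈ R y`, `y < x` (induction hypothesis, height `n + 1`). -/

open Cardinal FirstOrder Set
open FirstOrder.Language.Structure

universe u

namespace Vale.Agent.P307C

open Vale.Agent.P307P

variable {L : FirstOrder.Language.{u, u}} {K : AEC L} [Amalg K] {l θ : Cardinal.{u}}
  {W W' W'' : Type u} [L.Structure W] [L.Structure W'] [L.Structure W'']
  {X : Type u} [LinearOrder X] [WellFoundedLT X] {A B₀ G₀ G E : L.Substructure W} {D S T : Set X}
  {B U Q : X → L.Substructure W}

theorem Tow.fin (x : X) : ∀ {G₀ : L.Substructure W} {D S : Set X} {B U Q : X → L.Substructure W},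
    Tow K A B₀ G₀ D S B U Q → x ∈ D → ∀ c ∈ Q x, ∃ (n : ℕ) (R : L.Substructure W),
      FT K A B₀ n G₀ R ∧ Str K R ⊤ ∧ R ≤ Q x ∧ c ∈ R := by
  induction x using WellFoundedLT.induction with
  | ind x ih =>
  intro G₀ D S B U Q h hx c hc
  by_cases hU : c ∈ U x
  · rcases (h.mem x hx c).1 hU with h0 | ⟨y, hy, h0⟩
    · exact ⟨0, G₀, rfl, h.top₀, (h.le_U hx).trans (h.UQ hx), h0⟩
    · obtain ⟨n, R, f1, f2, f3, f4⟩ := ih y hy h (h.low hy.le hx) c h0
      exact ⟨n, R, f1, f2, f3.trans (h.mono hx hy.le), f4⟩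
  have hS : x ∈ S := by
    by_contra hS
    exact hU (h.idle x hx hS ▸ hc)
  have hD : ∀ y ∈ Iio x, y ∈ D := fun y hy => h.low (le_of_lt hy) hx
  have hne : (G₀ : Set W).Nonempty := h.ne.mono h.base.le
  obtain ⟨φ, a1, a2⟩ := h.cp x hx hS
  obtain ⟨E', p1, p2⟩ := (h.po x hx hS).split trivial h.ne h.base
    (h.top₀.coh (h.strU hx) (h.le_U hx))
  obtain ⟨V, R, r1, r2, r3⟩ := p2.res hne (isLowerSet_Iio x) U Q
    (fun y hy => (h.top y (hD y hy)).coh (h.strU hx) (h.QU hx hy))
    (fun y hy => h.UQ (hD y hy)) fun y hy => h.mem y (hD y hy)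
  have hT : Tow K A B₀ E' (Iio x) S B V R :=
    { low := isLowerSet_Iio x
      ne := h.ne
      base := h.base.trans p1.1.mp
      top₀ := p2.1.bp.trans (h.top x hx)
      cp := fun y hy => h.cp y (hD y hy)
      po := fun y hy hs => (h.po y (hD y hy) hs).paste (r2 y hy).2.1.symm
      idle := fun y hy hs => by
        have h1 := (r2 y hy).2.1
        rw [h.idle y (hD y hy) hs] at h1
        exact (h1.triv (hne.mono (h.le_U (hD y hy)))).symm
      top := fun y hy => (r2 y hy).2.2.1.bp.trans (h.top x hx)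
      mem := r1 }
  rcases r3 (fun c hc => (h.mem x hx c).1 hc) c hc with h0 | ⟨y, hy, h0⟩
  · exact ⟨1, E', ⟨φ, B x, E', a1, a2, p1, rfl⟩, hT.top₀, p2.1.bp.le, h0⟩
  · obtain ⟨n, R', f1, f2, f3, f4⟩ := ih y hy hT hy c h0
    exact ⟨n + 1, R', ⟨φ, B x, E', a1, a2, p1, f1⟩, f2, f3.trans (r2 y hy).2.2.1.bp.le, f4⟩

end Vale.Agent.P307C
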