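import Vale.Agent.P307C.Re
import Vale.Agent.P307C.Cl
import Vale.Agent.P307C.Fs
import Vale.Agent.P307C.Fin

/-! Few types in the standard model. `Std.cl` with `ρ = k`, `N = G`, start set `u`; `Std.re`; `ft_few` for the set `ψ '' s`
(same size, `mk_image_eq_of_injOn`) with `p R := Str K R G'` (height `0` for `c ∈ E`, otherwise `Tow.fin` and `Str.coh`);
pull back with the inverse `ψ'` of `ψ` (`IsoOn.exists_symm`, `IsoOn.restrict`, `IsoOn.str`): the map is `ψ' ∘ χ ∘ ψ`. -/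

open Cardinal FirstOrder Set
open FirstOrder.Language.Structure

universe u

namespace Vale.Agent.P307C

open Vale.Agent.P307P

variable {L : FirstOrder.Language.{u, u}} {K : AEC L} [Amalg K] {l θ : Cardinal.{u}}
  {W W' W'' : Type u} [L.Structure W] [L.Structure W'] [L.Structure W'']
  {X : Type u} [LinearOrder X] [WellFoundedLT X] {A B₀ G₀ G E : L.Substructure W} {D S T : Set X}
  {B U Q : X → L.Substructure W}

theorem Std.few [Nonempty X] (h : Std K l θ A B₀ G B U Q) {k : Cardinal.{u}} (hk : l ≤ k)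
    (u s : Set W) (hu : u ⊆ G) (huc : #u ≤ k) (hs : s ⊆ G) (hsc : k < #s) :
    ∃ c₁ ∈ s, ∃ c₂ ∈ s, c₁ ≠ c₂ ∧ ∃ (χ : W → W) (R₁ R₂ : L.Substructure W), IsoOn χ R₁ R₂ ∧
      Str K R₁ G ∧ Str K R₂ G ∧ u ⊆ R₁ ∧ EqOn χ id u ∧ c₁ ∈ R₁ ∧ χ c₁ = c₂ := by
  haveI : Nonempty W := h.mon.nonempty
  obtain ⟨E, T, hE, huE, hEc, -⟩ := h.cl hk (str_refl h.top.mem_left) u hu huc
  obtain ⟨ψ, G', B', H, H', hψ, hid, hG', htow, hmem, -⟩ := h.re hE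
  obtain ⟨ψ', hψ', i1, -⟩ := hψ.exists_symm
  have hEs : Str K E G' := htow.top₀.coh hG' fun c hc => (hmem c).2 (Or.inl hc)
  have hcard : k < #(ψ '' s) := by rwa [mk_image_eq_of_injOn ψ s (hψ.1.injOn.mono hs)]
  have hft : ∀ c ∈ ψ '' s, ∃ (n : ℕ) (R : L.Substructure W),
      FT K A B₀ n E R ∧ Str K R G' ∧ c ∈ R := by
    rintro _ ⟨c, hc, rfl⟩
    rcases (hmem _).1 (hψ.1.mapsTo (hs hc)) with h1 | ⟨x, hx⟩
    · exact ⟨0, E, rfl, hEs, h1⟩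
    · obtain ⟨n, R, hR, hRs, hRl, hcR⟩ := Tow.fin x htow (Set.mem_univ x) _ hx
      exact ⟨n, R, hR, hRs.coh hG' fun y hy => (hmem y).2 (Or.inr ⟨x, hRl hy⟩), hcR⟩
  obtain ⟨_, ⟨c₁, hc₁, rfl⟩, _, ⟨c₂, hc₂, rfl⟩, hne, χ, R₁, R₂, hχ, p₁, p₂, hER, hχE, hd₁, hχd⟩ :=
    ft_few h.mon.ls hk h.ab.le (h.small.trans hk) hEc hE.str.mem_left (fun R => Str K R G')
      (ψ '' s) hcard hft
  obtain ⟨S₁, -, hS₁⟩ := hψ'.restrict p₁.le
  obtain ⟨S₂, -, hS₂⟩ := hψ'.restrict p₂.le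
  obtain ⟨τ, hτ, j1, -⟩ := hS₁.exists_symm
  have fx : ∀ x ∈ E, ψ' x = x := fun x hx => by
    have e := i1 x (hE.str.le hx)
    rwa [hid hx] at e
  refine ⟨c₁, hc₁, c₂, hc₂, fun e => hne (congrArg ψ e), ψ' ∘ χ ∘ τ, S₁, S₂,
    hS₂.comp (hχ.comp hτ), hψ'.str hS₁ p₁, hψ'.str hS₂ p₂, ?_, ?_, ?_, ?_⟩
  · intro x hx
    have e := hS₁.1.mapsTo (hER (huE hx))
    rwa [fx x (huE hx)] at e
  · intro x hx
    have e := j1 x (hER (huE hx))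
    rw [fx x (huE hx)] at e
    have e' : χ x = x := hχE (huE hx)
    change ψ' (χ (τ x)) = x
    rw [e, e', fx x (huE hx)]
  · have e := hS₁.1.mapsTo hd₁
    rwa [i1 c₁ (hs hc₁)] at e
  · have e := j1 _ hd₁
    rw [i1 c₁ (hs hc₁)] at e
    change ψ' (χ (τ c₁)) = c₂
    rw [e, hχd, i1 c₂ (hs hc₂)]

end Vale.Agent.P307C
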