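import Vale.Agent.P307C.Lc0
import Vale.Agent.P307C.Sat

/-! Local character. -/

open Cardinal FirstOrder Set
open FirstOrder.Language.Structure

universe u

namespace Vale.Agent.P307C

open Vale.Agent.P307P

variable {L : FirstOrder.Language.{u, u}} {K : AEC L} [Amalg K] {l θ : Cardinal.{u}}
  {W W' W'' : Type u} [L.Structure W] [L.Structure W'] [L.Structure W'']

theorem Ctx.lc (h : Ctx K l) {M N : L.Substructure W} (hMN : Str K M N)
    (hM : K.Categorical #M) (hl : l ≤ #M) {ρ : Cardinal.{u}} (hρ : l ≤ ρ) (s : Set W)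
    (hs : s ⊆ N) (hc : #s ≤ ρ) :
    ∃ A B P : L.Substructure W, IsPO K A B M P ∧ Str K P N ∧ s ⊆ B ∧ #B ≤ ρ ∧
      (A : Set W).Nonempty := by
  obtain ⟨k, hk1, hk⟩ := h.unb (Order.succ #N)
  have hNk : #N < k := Order.succ_le_iff.1 hk1
  have hMN' : #M ≤ #N := card_mono hMN.le
  have hlN : l ≤ #N := hl.trans hMN'
  obtain ⟨W₁, _, A₁, B₀, G, B₁, U, Q, hS, hU, hm⟩ := h.exists_std (hlN.trans hNk.le)
  obtain ⟨m, hFI⟩ := hm #M hl (hMN'.trans_lt hNk)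
  have hne₁ : Nonempty W₁ := hS.mon.nonempty
  have := nonempty_ord_toType (h.ls.inf.trans (hlN.trans hNk.le))
  have hne : Nonempty W := by
    have h0 : #M ≠ 0 := ne_of_gt (lt_of_lt_of_le Cardinal.aleph0_pos (h.ls.inf.trans hl))
    obtain ⟨x⟩ := Cardinal.mk_ne_zero_iff.1 h0
    exact ⟨x.1⟩
  have hIU : Str K (U m) G := hS.strU m
  obtain ⟨φ, hφ⟩ := exists_isoOn_of_cat hM hMN.mem_left hIU.mem_left rfl hFI
  obtain ⟨ψ, N', hψ, hN', he⟩ := h.univ hlN hNk hk hIU.mem_right hU W M N (U m) φ hMN le_rfl hIU hφ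
  have hψM : IsoOn ψ M (U m) := hφ.congr he
  have hIN : U m ≤ N' := hψM.le hψ hMN.le
  obtain ⟨A', B', P', hpo, hP', hsB, hcB, hA'⟩ := hS.lc m hN' hIN hρ (ψ '' s)
    (by rintro _ ⟨x, hx, rfl⟩; exact hψ.1.mapsTo (hs hx)) (Cardinal.mk_image_le.trans hc)
  obtain ⟨χ, hχ, i1, -⟩ := hψ.exists_symm
  have hBN : B' ≤ N' := hpo.1.bp.le.trans hP'.le
  obtain ⟨P, -, hP⟩ := hχ.restrict hP'.le
  obtain ⟨B, -, hB⟩ := hχ.restrict hBN
  obtain ⟨A, -, hA⟩ := hχ.restrict (hpo.1.ab.le.trans hBN)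
  obtain ⟨M₀, -, hM₀⟩ := hχ.restrict hIN
  have e : M₀ = M := by
    have h1 : IsoOn (id : W → W) M M₀ :=
      (hM₀.comp hψM).congr fun x hx => i1 x (hMN.le hx)
    exact h1.unique (isoOn_id M)
  subst e
  refine ⟨A, B, P, hpo.iso hA hB hM₀ hP, hχ.str hP hP', fun x hx => ?_, hB.card_eq.trans_le hcB,
    ?_⟩
  · have := hB.1.mapsTo (hsB ⟨x, hx, rfl⟩)
    rwa [i1 x (hs hx)] at this
  · obtain ⟨y, hy⟩ := hA'
    exact ⟨χ y, hA.1.mapsTo hy⟩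

end Vale.Agent.P307C
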