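import Vale.Agent.P307C.Re
import Vale.Agent.P307C.Cl

/-! Local character in the standard model. `Std.cl`, `Std.re`; pull the square at `m` back with the inverse `ψ'` of `ψ`
(`H m ≤ G'`, strong by `Tow.strU` and `Str.coh`; `ψ'` fixes `E`; `IsPO.iso`): `IsPO (E ⊓ U m) E (U m) H₀` with `Str K H₀ G`.
`symm`, split at `E ⊓ N` (`Str.coh` inside `G`), `symm`, then `IsPO.prime` with `D := G`. `A ≤ E ⊓ U m` is nonempty. -/

open Cardinal FirstOrder Set
open FirstOrder.Language.Structure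

universe u

namespace Vale.Agent.P307C

open Vale.Agent.P307P

variable {L : FirstOrder.Language.{u, u}} {K : AEC L} [Amalg K] {l θ : Cardinal.{u}}
  {W W' W'' : Type u} [L.Structure W] [L.Structure W'] [L.Structure W'']
  {X : Type u} [LinearOrder X] [WellFoundedLT X] {A B₀ G₀ G E : L.Substructure W} {D S T : Set X}
  {B U Q : X → L.Substructure W}

theorem Std.lc [Nonempty X] (h : Std K l θ A B₀ G B U Q) (m : X) {N : L.Substructure W}
    (hN : Str K N G) (hm : U m ≤ N) {ρ : Cardinal.{u}} (hρ : l ≤ ρ) (s : Set W) (hs : s ⊆ N)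
    (hc : #s ≤ ρ) : ∃ A' B' P : L.Substructure W, IsPO K A' B' (U m) P ∧ Str K P N ∧ s ⊆ B' ∧
      #B' ≤ ρ ∧ (A' : Set W).Nonempty := by
  have := h.mon.nonempty
  obtain ⟨E, T, hE, hsE, hcE, hEN⟩ := h.cl hρ hN s (fun x hx => hN.le (hs hx)) hc
  obtain ⟨ψ, G', B', H, H', hψ, hid, hG', tow, mem, sq⟩ := h.re hE
  obtain ⟨U', hU', po⟩ := sq m
  obtain ⟨ψ', hψ', i1, -⟩ := hψ.exists_symm
  have h1 : H m ≤ G' := fun c hc => (mem c).2 (.inr ⟨m, tow.UQ (mem_univ m) hc⟩)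
  have h2 : Str K (H m) G' := (tow.strU (mem_univ m)).coh hG' h1
  obtain ⟨H₀, -, hH₀⟩ := hψ'.restrict h1
  have h3 : Str K H₀ G := hψ'.str hH₀ h2
  have h4 : ∀ F : L.Substructure W, F ≤ E → IsoOn ψ' F F := fun F hF =>
    (isoOn_id F).congr fun x hx => by
      have := i1 x (hE.str.le (hF hx))
      rw [hid (hF hx)] at this
      exact this.symm
  obtain ⟨U'', -, hU''⟩ := hψ'.restrict (po.1.mp.le.trans h1)
  obtain rfl : U m = U'' := IsoOn.unique ((isoOn_id (U m)).congr fun x hx =>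
    (i1 x ((h.strU m).le hx)).symm) (hU''.comp hU')
  have po₀ := po.iso (h4 _ inf_le_left) (h4 _ le_rfl) hU'' hH₀
  have hne : ((E ⊓ U m : L.Substructure W) : Set W).Nonempty := by
    obtain ⟨a, ha⟩ := h.tow.ne
    exact ⟨a, hE.le ha, h.tow.le_U (mem_univ m) ha⟩
  have h5 : Str K (E ⊓ N) G := hEN.trans hN
  obtain ⟨P', p1, p2⟩ := po₀.symm.split h.mon.po hne
    ((po₀.1.ab.trans hE.str).coh h5 (inf_le_inf_left E hm)) (h5.coh hE.str inf_le_left)
  obtain ⟨P, p3, p4⟩ := p1.symm.prime (p2.1.bp.trans h3) hN inf_le_right hm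
  exact ⟨_, _, P, p3, p4, fun x hx => ⟨hsE hx, hs hx⟩,
    (Cardinal.mk_le_mk_of_subset (s := ((E ⊓ N : L.Substructure W) : Set W)) (t := E)
      fun _ hx => hx.1).trans hcE, hne⟩

end Vale.Agent.P307C
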