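import Vale.Agent.P307C.Succ2
import Vale.Agent.P307P.Bf

/-! Categoricity in unboundedly many cardinals gives categoricity on a tail. -/

open Cardinal FirstOrder Set
open FirstOrder.Language.Structure

universe u

namespace Vale.Agent.P307C

open Vale.Agent.P307P

variable {L : FirstOrder.Language.{u, u}} {K : AEC L} [Amalg K] {l θ : Cardinal.{u}}
  {W W' W'' : Type u} [L.Structure W] [L.Structure W'] [L.Structure W'']

theorem Ctx.tail (h : Ctx K l) : ∃ m : Cardinal.{u}, ∀ k, m ≤ k → K.Categorical k := by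
  obtain ⟨ρ, hρ, hρc⟩ := h.unb (Order.succ l)
  obtain ⟨m, hm, hmc⟩ := h.unb (Order.succ ρ)
  have hlρ : l < ρ := Order.succ_le_iff.1 hρ
  have hρm : ρ < m := Order.succ_le_iff.1 hm
  have hlm : l ≤ m := (hlρ.trans hρm).le
  refine ⟨m, fun k => ?_⟩
  induction k using WellFoundedLT.induction with
  | ind k IH =>
    intro hk
    rcases hk.eq_or_lt with rfl | hlt
    · exact hmc
    constructor
    · obtain ⟨k', hk', ⟨M, _, hM, hMc⟩, -⟩ := h.unb k
      have htop : #(⊤ : L.Substructure M) = k' :=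
        (Cardinal.mk_congr Language.Substructure.topEquiv.toEquiv).trans hMc
      obtain ⟨A, hA, -, hAc⟩ := exists_str_card h.ls (hlm.trans hk) (mem_top_iff.2 hM)
        (htop ▸ hk') ∅ (empty_subset _) (by simp)
      exact ⟨A, inferInstance, hA.mem_left, hAc⟩
    · intro M N _ _ hM hN hMc hNc
      have tM : #(⊤ : L.Substructure M) = k :=
        (Cardinal.mk_congr Language.Substructure.topEquiv.toEquiv).trans hMc
      have tN : #(⊤ : L.Substructure N) = k :=
        (Cardinal.mk_congr Language.Substructure.topEquiv.toEquiv).trans hNc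
      obtain ⟨A₁, s₁, -, c₁⟩ := exists_str_card h.ls hlm (mem_top_iff.2 hM) (tM ▸ hk) ∅
        (empty_subset _) (by simp)
      obtain ⟨A₂, s₂, -, c₂⟩ := exists_str_card h.ls hlm (mem_top_iff.2 hN) (tN ▸ hk) ∅
        (empty_subset _) (by simp)
      have : Nonempty N := Cardinal.mk_ne_zero_iff.1
        (ne_of_gt (hNc ▸ lt_of_le_of_lt zero_le hlt))
      obtain ⟨φ, hφ⟩ := exists_isoOn_of_cat hmc s₁.mem_left s₂.mem_left c₁ c₂
      obtain ⟨e⟩ := back_forth h.ls hlm hlt tM tN
        (fun n h1 h2 => h.univ_succ hlρ hρc (hρm.trans_le h1) (IH n h2 h1) (mem_top_iff.2 hM)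
          (tM ▸ h2))
        (fun n h1 h2 => h.univ_succ hlρ hρc (hρm.trans_le h1) (IH n h2 h1) (mem_top_iff.2 hN)
          (tN ▸ h2)) hφ s₁ s₂ c₁.le
      exact ⟨(Language.Substructure.topEquiv.comp e).comp Language.Substructure.topEquiv.symm⟩

end Vale.Agent.P307C
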