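import Vale.Agent.P307C.Min0

/-! Minimal types. -/

open Cardinal FirstOrder Set
open FirstOrder.Language.Structure

universe u

namespace Vale.Agent.P307C

open Vale.Agent.P307P

variable {L : FirstOrder.Language.{u, u}} {K : AEC L} [Amalg K] {l θ : Cardinal.{u}}
  {W W' W'' : Type u} [L.Structure W] [L.Structure W'] [L.Structure W'']

/-- the minimality passes to conjugates: `φ` from `Eqv A c' c` extended to cover `M`
(`Mon.extend`), apply `free` to the image of `M`, come back by `Mon.free_iso` with the inverse -/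
theorem Mon.min_conj (hm : Mon K l θ W) {ρ : Cardinal.{u}} (hρθ : ρ ≤ θ) {A : L.Substructure W}
    {c c' : W} (h : IsMin K θ ρ A c) (e : Eqv K θ A c c') : IsMin K θ ρ A c' := by
  have := hm.nonempty
  refine ⟨h.str, h.card, e.not_mem h.nmem, fun M hAM hM hMc hc => ?_⟩
  obtain ⟨φ, B, B', hB, hB', hBc, hAB, hφ, hid, hcB, hφc⟩ := hm.eqv_symm e
  obtain ⟨ψ, D, D', hψ, hD, hD', hDc, hBD, hMD, he⟩ :=
    hm.extend hφ hB hB' hBc (M : Set W) (hMc.le.trans hρθ)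
  have hMD' : M ≤ D := hMD
  have hψA : ∀ x ∈ A, ψ x = x := fun x hx => (he (hAB hx)).symm.trans (hid hx)
  have hψc : ψ c' = c := (he hcB).symm.trans hφc
  have hA : IsoOn ψ A A := (isoOn_id A).congr fun x hx => (hψA x hx).symm
  obtain ⟨M', hM'D, hM'⟩ := hψ.restrict hMD'
  have hc' : c ∉ M' := fun hcM => by
    obtain ⟨m, hm1, hm2⟩ := hM'.1.surjOn hcM
    exact hc (hψ.1.injOn (hMD hm1) (hBD hcB) (hm2.trans hψc.symm) ▸ hm1)
  have f := h.free M' (hA.le hM' hAM) ((hψ.str hM' (hM.coh hD hMD')).trans hD')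
    (hM'.card_eq.trans hMc) hc'
  obtain ⟨χ, hχ, i1, -⟩ := hψ.exists_symm
  have hχA : IsoOn χ A A := (isoOn_id A).congr fun x hx => by
    have h1 := i1 x (hBD (hAB hx))
    rw [hψA x hx] at h1
    exact h1.symm
  obtain ⟨M'', -, hM''⟩ := hχ.restrict hM'D
  have e1 : M'' = M := (hM''.comp hM').unique ((isoOn_id M).congr fun x hx => (i1 x (hMD hx)).symm)
  rw [e1] at hM''
  have f' := hm.free_iso hχ hD' hD (hψ.card_eq.le.trans hDc) hM'D
    (hψc ▸ hψ.1.mapsTo (hBD hcB)) hχA hM'' f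
  rwa [← hψc, i1 c' (hBD hcB)] at f'

theorem min_ins {s : Set W} {n : Cardinal.{u}} (hn : ℵ₀ ≤ n) (hs : #s ≤ n) (c : W) :
    #(insert c s : Set W) ≤ n :=
  mk_insert_le.trans (add_le_of_le hn hs (one_le_aleph0.trans hn))

theorem min_le {A M : L.Substructure W} (h : A ≤ M) : #A ≤ #M := mk_le_mk_of_subset h

theorem min_ne {ρ : Cardinal.{u}} (hρ : ℵ₀ ≤ ρ) {A : L.Substructure W} (h : #A = ρ) :
    (A : Set W).Nonempty :=
  nonempty_coe_sort.1 (mk_ne_zero_iff.1 (aleph0_pos.trans_le (hρ.trans h.ge)).ne')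

/-- `Ctx.lc` for `M ≤ N` (hull of `M ∪ {c}`), `s = A ∪ {c}`, size `ρ`: `A ≤ A' = B ⊓ M`,
`#A' = ρ`, so `Free A A' c`, and `Free A' M c`; `free_trans`. -/
theorem Ctx.min_free (h : Ctx K l) (hm : Mon K l θ W) {ρ : Cardinal.{u}} (hρ : l ≤ ρ)
    {A M : L.Substructure W} {c : W} (hA : IsMin K θ ρ A c) (hM : Str K M ⊤) (hAM : A ≤ M)
    (hMc : #M ≤ θ) (hcat : K.Categorical #M) (hc : c ∉ M) : Free K θ A M c := by
  have hρ0 : ℵ₀ ≤ ρ := h.ls.inf.trans hρ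
  have hρM : ρ ≤ #M := hA.card.ge.trans (min_le hAM)
  obtain ⟨N, hN, hMN, hNc⟩ := hm.hull hm.le (insert c (M : Set W)) (min_ins hm.inf hMc c)
  have hMN' : M ≤ N := fun x hx => hMN (mem_insert_of_mem _ hx)
  obtain ⟨A', B, P, hP, hPN, hs, hBc, -⟩ := h.lc (hM.coh hN hMN') hcat (hρ.trans hρM) hρ
    (insert c (A : Set W)) ((insert_subset_insert hAM).trans hMN) (min_ins hρ0 hA.card.le c)
  have hAA : A ≤ A' := hP.2 ▸ le_inf (fun x hx => hs (mem_insert_of_mem _ hx)) hAM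
  have f1 := hA.free A' hAA (hP.1.am.trans hM)
    (le_antisymm ((min_le hP.1.ab.le).trans hBc) (hA.card.ge.trans (min_le hAA)))
    fun h1 => hc (hP.1.am.le h1)
  exact hm.free_trans (min_ne hρ0 hA.card) f1
    ⟨B, P, hP, hPN.trans hN, (min_le hPN.le).trans hNc, hs (mem_insert _ _)⟩

theorem Ctx.min_unique (h : Ctx K l) (hm : Mon K l θ W) {ρ : Cardinal.{u}} (hρ : l ≤ ρ)
    {A M : L.Substructure W} {c c₁ c₂ : W} (hA : IsMin K θ ρ A c) (hM : Str K M ⊤)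
    (hAM : A ≤ M) (hMc : #M ≤ θ) (hcat : K.Categorical #M) (e₁ : Eqv K θ A c c₁)
    (e₂ : Eqv K θ A c c₂) (h₁ : c₁ ∉ M) (h₂ : c₂ ∉ M) : Eqv K θ M c₁ c₂ := by
  have hρθ : ρ ≤ θ := hA.card.ge.trans ((min_le hAM).trans hMc)
  exact hm.free_unique (min_ne (h.ls.inf.trans hρ) hA.card)
    (h.min_free hm hρ (hm.min_conj hρθ hA e₁) hM hAM hMc hcat h₁)
    (h.min_free hm hρ (hm.min_conj hρθ hA e₂) hM hAM hMc hcat h₂)
    (hm.eqv_trans (hm.eqv_symm e₁) e₂)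

end Vale.Agent.P307C
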