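import Vale.Agent.P307C.Po

/-! Partial isomorphisms and pushouts inside a monster model. -/

open Cardinal FirstOrder Set
open FirstOrder.Language.Structure

universe u

namespace Vale.Agent.P307C

open Vale.Agent.P307P

variable {L : FirstOrder.Language.{u, u}} {K : AEC L} [Amalg K] {l θ : Cardinal.{u}}
  {W W' W'' : Type u} [L.Structure W] [L.Structure W'] [L.Structure W'']

theorem Mon.top (h : Mon K l θ W) : K.Mem (⊤ : L.Substructure W) := mem_top_iff.2 h.mem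

theorem Mon.hull (h : Mon K l θ W) {n : Cardinal.{u}} (hn : l ≤ n) (s : Set W) (hs : #s ≤ n) :
    ∃ A : L.Substructure W, Str K A ⊤ ∧ s ⊆ A ∧ #A ≤ n :=
  exists_str_ls h.ls hn h.top s (fun _ _ => trivial) hs

/-- extend the domain -/
theorem Mon.extend (h : Mon K l θ W) {φ : W → W} {A A' : L.Substructure W} (hφ : IsoOn φ A A')
    (hA : Str K A ⊤) (hA' : Str K A' ⊤) (hc : #A ≤ θ) (s : Set W) (hs : #s ≤ θ) :
    ∃ (ψ : W → W) (B B' : L.Substructure W), IsoOn ψ B B' ∧ Str K B ⊤ ∧ Str K B' ⊤ ∧ #B ≤ θ ∧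
      A ≤ B ∧ s ⊆ B ∧ EqOn φ ψ A := by
  obtain ⟨B, hB, hs', hBc⟩ := h.hull h.le ((A : Set W) ∪ s) (card_union_le h.inf hc hs)
  have hAB : A ≤ B := fun x hx => hs' (Or.inl hx)
  obtain ⟨ψ, B', h1, h2, h3⟩ := h.univ W A B A' φ (hA.coh hB hAB) hBc hA' hφ
  exact ⟨ψ, B, B', h1, hB, h2, hBc, hAB, fun x hx => hs' (Or.inr hx), h3⟩

/-- extend the domain and the range -/
theorem Mon.extend2 (h : Mon K l θ W) {φ : W → W} {A A' : L.Substructure W} (hφ : IsoOn φ A A')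
    (hA : Str K A ⊤) (hA' : Str K A' ⊤) (hc : #A ≤ θ) (s t : Set W) (hs : #s ≤ θ)
    (ht : #t ≤ θ) :
    ∃ (ψ : W → W) (B B' : L.Substructure W), IsoOn ψ B B' ∧ Str K B ⊤ ∧ Str K B' ⊤ ∧ #B ≤ θ ∧
      A ≤ B ∧ s ⊆ B ∧ t ⊆ B' ∧ EqOn φ ψ A := by
  have := h.nonempty
  obtain ⟨ψ, B, B', h1, hB, hB', hBc, hAB, hsB, he⟩ := h.extend hφ hA hA' hc s hs
  obtain ⟨ψ', g1, g2, _⟩ := h1.exists_symm
  obtain ⟨χ, D', D, k1, hD', hD, hDc, hBD, htD, ke⟩ :=
    h.extend g1 hB' hB (h1.card_eq.trans_le hBc) t ht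
  obtain ⟨χ', m1, m2, _⟩ := k1.exists_symm
  have hle : B ≤ D := (g1.congr ke).le k1 hBD
  refine ⟨χ', D, D', m1, hD, hD', k1.card_eq.trans_le hDc, hAB.trans hle,
    fun x hx => hle (hsB hx), htD, fun x hx => ?_⟩
  have hy : ψ x ∈ B' := h1.1.mapsTo (hAB hx)
  have e1 : χ (ψ x) = x := (ke hy).symm.trans (g2 x (hAB hx))
  have e2 := m2 _ (hBD hy)
  rw [e1] at e2
  exact (he hx).trans e2.symm

theorem Mon.eqv_refl (h : Mon K l θ W) {A : L.Substructure W} (hc : #A ≤ θ) (c : W) :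
    Eqv K θ A c c := by
  obtain ⟨B, hB, hs', hBc⟩ := h.hull h.le ((A : Set W) ∪ {c})
    (card_union_le h.inf hc (by rw [Cardinal.mk_singleton]; exact one_le_aleph0.trans h.inf))
  exact ⟨id, B, B, hB, hB, hBc, fun x hx => hs' (Or.inl hx), isoOn_id B, fun _ _ => rfl,
    hs' (Or.inr rfl), rfl⟩

theorem Mon.eqv_symm (h : Mon K l θ W) {A : L.Substructure W} {c c' : W} (e : Eqv K θ A c c') :
    Eqv K θ A c' c := by
  have := h.nonempty
  obtain ⟨φ, B, B', hB, hB', hBc, hAB, hφ, he, hcB, rfl⟩ := e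
  obtain ⟨ψ, g1, g2, _⟩ := hφ.exists_symm
  refine ⟨ψ, B', B, hB', hB, hφ.card_eq.trans_le hBc, fun x hx => ?_, g1, fun x hx => ?_,
    hφ.1.mapsTo hcB, g2 c hcB⟩
  · have h1 := hφ.1.mapsTo (hAB hx)
    rw [he hx] at h1
    exact h1
  · have h1 := g2 x (hAB hx)
    rw [he hx] at h1
    exact h1

/-- extend the second map to cover the range of the first, restrict, compose -/
theorem Mon.eqv_trans (h : Mon K l θ W) {A : L.Substructure W} {c c' c'' : W}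
    (e1 : Eqv K θ A c c') (e2 : Eqv K θ A c' c'') : Eqv K θ A c c'' := by
  obtain ⟨φ, B, B', hB, hB', hBc, hAB, hφ, he, hcB, rfl⟩ := e1
  obtain ⟨ψ, D, D', hD, hD', hDc, hAD, hψ, ke, hcD, rfl⟩ := e2
  obtain ⟨χ, E, E', h1, hE, hE', _, hDE, hBE, me⟩ :=
    h.extend hψ hD hD' hDc (B' : Set W) (hφ.card_eq.trans_le hBc)
  obtain ⟨B'', _, h2⟩ := h1.restrict (show B' ≤ E from hBE)
  refine ⟨χ ∘ φ, B, B'', hB, (h1.str h2 (hB'.coh hE hBE)).trans hE', hBc, hAB, h2.comp hφ,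
    fun x hx => ?_, hcB, (me hcD).symm⟩
  have e1 : φ x = x := he hx
  rw [Function.comp_apply, e1, ← me (hAD hx)]
  exact ke hx

theorem Eqv.mono {A A' : L.Substructure W} {c c' : W} (e : Eqv K θ A c c') (hA : A' ≤ A) :
    Eqv K θ A' c c' := by
  obtain ⟨φ, B, B', hB, hB', hBc, hAB, hφ, he, hcB, hc⟩ := e
  exact ⟨φ, B, B', hB, hB', hBc, hA.trans hAB, hφ, fun x hx => he (hA hx), hcB, hc⟩

theorem Eqv.not_mem {A : L.Substructure W} {c c' : W} (e : Eqv K θ A c c') (hc : c ∉ A) :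
    c' ∉ A := by
  obtain ⟨φ, B, B', _, _, _, hAB, hφ, he, hcB, hc'⟩ := e
  intro h
  have e1 : c = c' := hφ.1.injOn hcB (hAB h) (hc'.trans (he h).symm)
  exact hc (e1 ▸ h)

end Vale.Agent.P307C
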