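import Vale.Agent.P307C.Base
import Vale.Agent.P307P.Dir
import Vale.Agent.P307P.Emb
import Vale.Agent.P307P.Rec

/-! Calculus of squares. -/

open Cardinal FirstOrder Set
open FirstOrder.Language.Structure

universe u

namespace Vale.Agent.P307C

open Vale.Agent.P307P

variable {L : FirstOrder.Language.{u, u}} {K : AEC L} [Amalg K] {l θ : Cardinal.{u}}
  {W W' W'' : Type u} [L.Structure W] [L.Structure W'] [L.Structure W'']

theorem isPO_of_sq {A B M P : L.Substructure W} (h : Amalg.Sq (K := K) W A B M P) : IsPO K A B M P := by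
  obtain ⟨h1, h2, h3, h4, h5⟩ := Amalg.str W A B M P h
  exact ⟨⟨h1, h2, h3, h4, h⟩, h5⟩

theorem PrePO.isPO {A B M P : L.Substructure W} (h : PrePO K A B M P) : IsPO K A B M P := by
  exact isPO_of_sq h.sq

theorem IsPO.symm {A B M P : L.Substructure W} (h : IsPO K A B M P) : IsPO K A M B P := by
  exact isPO_of_sq (Amalg.symm W A B M P h.1.sq)

theorem IsPO.paste {A B M' P' M P : L.Substructure W} (h1 : IsPO K A B M' P')
    (h2 : IsPO K M' P' M P) : IsPO K A B M P := by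
  exact isPO_of_sq (Amalg.paste W A B M' P' M P h1.1.sq h2.1.sq)

theorem PrePO.unique {A B M P : L.Substructure W} {A' B' M' P' : L.Substructure W'}
    (h : PrePO K A B M P) (h' : PrePO K A' B' M' P') {φ ψ : W → W'} (hA : IsoOn φ A A')
    (hB : IsoOn φ B B') (hM : IsoOn ψ M M') (he : EqOn φ ψ A) :
    ∃ χ : W → W', IsoOn χ P P' ∧ EqOn φ χ B ∧ EqOn ψ χ M := by
  exact Amalg.uq W W' A B M P A' B' M' P' φ ψ h.sq h'.sq hA hB hM he

theorem IsPO.iso {A B M P : L.Substructure W} {A' B' M' P' : L.Substructure W'}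
    (h : IsPO K A B M P) {φ : W → W'} (hA : IsoOn φ A A') (hB : IsoOn φ B B')
    (hM : IsoOn φ M M') (hP : IsoOn φ P P') : IsPO K A' B' M' P' := by
  exact isPO_of_sq (Amalg.iso W W' A B M P A' B' M' P' φ hA hB hM hP h.1.sq)

theorem IsPO.prime {A B M P D N : L.Substructure W} (h : IsPO K A B M P) (hP : Str K P D)
    (hN : Str K N D) (hB : B ≤ N) (hM : M ≤ N) :
    ∃ P' : L.Substructure W, IsPO K A B M P' ∧ Str K P' N := by
  obtain ⟨χ, P', h1, h2, h3, h4⟩ := Amalg.prime W A B M P D N h.1.sq hP hN hB hM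
  exact ⟨P', h.iso ((isoOn_id A).congr (h3.mono h.1.ab.le).symm) ((isoOn_id B).congr h3.symm)
    ((isoOn_id M).congr h4.symm) h1, h2⟩

theorem PrePO.card_le (hl : K.LSBound l) {A B M P : L.Substructure W} (h : PrePO K A B M P)
    {n : Cardinal.{u}} (hn : l ≤ n) (hB : #B ≤ n) (hM : #M ≤ n) : #P ≤ n := by
  obtain ⟨N, h1, h2, h3⟩ := exists_str_ls hl hn h.bp.mem_right (B ∪ M)
    (union_subset h.bp.le h.mp.le) (card_union_le (hl.inf.trans hn) hB hM)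
  obtain ⟨χ, P', k1, k2, -⟩ := Amalg.prime W A B M P P N h.sq (str_refl h.bp.mem_right) h1
    (fun x hx => h2 (Or.inl hx)) fun x hx => h2 (Or.inr hx)
  exact k1.card_eq.ge.trans ((card_mono k2.le).trans h3)

theorem exists_po (hpo : HP K) {A B : L.Substructure W} {A' M : L.Substructure W'}
    (hne : (A : Set W).Nonempty) (hAB : Str K A B) (hAM : Str K A' M) {φ : W → W'}
    (hφ : IsoOn φ A A') :
    ∃ (W₃ : Type u) (_ : L.Structure W₃) (φ₁ : W → W₃) (φ₂ : W' → W₃)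
      (A₃ B₃ M₃ : L.Substructure W₃), IsoOn φ₁ A A₃ ∧ IsoOn φ₁ B B₃ ∧ IsoOn φ₂ A' A₃ ∧
      IsoOn φ₂ M M₃ ∧ EqOn φ₁ (φ₂ ∘ φ) A ∧ IsPO K A₃ B₃ M₃ ⊤ := by
  obtain ⟨e, he⟩ := hφ.exists_equiv
  have r1 : (Language.Substructure.inclusion hAB.1).toHom.range = A.comap B.subtype.toHom := by
    ext x
    constructor
    · rintro ⟨a, rfl⟩
      exact a.2
    · intro hx
      exact ⟨⟨x.1, hx⟩, rfl⟩
  have r2 : ((Language.Substructure.inclusion hAM.1).comp e.toEmbedding).toHom.range =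
      A'.comap M.subtype.toHom := by
    ext x
    constructor
    · rintro ⟨a, rfl⟩
      exact (e a).2
    · intro hx
      refine ⟨e.symm ⟨x.1, hx⟩, Subtype.ext ?_⟩
      exact congrArg (fun z : A' => (z : W')) (e.apply_symm_apply ⟨x.1, hx⟩)
  obtain ⟨P, _, g₁, g₂, hc, hu⟩ := Amalg.ex (K := K) A B M (Language.Substructure.inclusion hAB.1)
    ((Language.Substructure.inclusion hAM.1).comp e.toEmbedding) (by rw [r1]; exact hAB.2)
    (by rw [r2]; exact hAM.2)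
  obtain ⟨a0, ha0⟩ := hne
  have : Nonempty P := ⟨g₁ ⟨a0, hAB.1 ha0⟩⟩
  obtain ⟨φ₁, i1, e1⟩ := exists_isoOn_of_embedding g₁
  obtain ⟨φ₂, i2, e2⟩ := exists_isoOn_of_embedding g₂
  obtain ⟨A₃, hA3, j1⟩ := i1.restrict hAB.1
  have hq : EqOn φ₁ (φ₂ ∘ φ) A := by
    intro x hx
    have h1 := e1 ⟨x, hAB.1 hx⟩
    have h2 := e2 ⟨(e ⟨x, hx⟩ : W'), hAM.1 (e ⟨x, hx⟩).2⟩
    have h3 := hc ⟨x, hx⟩
    have h4 : ((e ⟨x, hx⟩ : A') : W') = φ x := he ⟨x, hx⟩
    show φ₁ x = φ₂ (φ x)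
    rw [← h4]
    exact h1.trans (h3.trans h2.symm)
  obtain ⟨A₄, hA4, j2⟩ := i2.restrict hAM.1
  obtain rfl : A₃ = A₄ := j1.unique ((j2.comp hφ).congr hq.symm)
  refine ⟨P, inferInstance, φ₁, φ₂, A₃, _, _, j1, i1, j2, i2, hq, ?_⟩
  have k := isPO_of_sq hu
  have e3 : (g₁.comp (Language.Substructure.inclusion hAB.1)).toHom.range = A₃ := by
    ext z
    constructor
    · rintro ⟨x, rfl⟩
      have := j1.1.mapsTo x.2
      rwa [show φ₁ x = _ from e1 ⟨x, hAB.1 x.2⟩] at this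
    · intro hz
      obtain ⟨x, hx, rfl⟩ := j1.1.surjOn hz
      exact ⟨⟨x, hx⟩, (e1 ⟨x, hAB.1 hx⟩).symm⟩
  rwa [e3] at k

theorem IsPO.split (hpo : HP K) {A B M P M' : L.Substructure W} (h : IsPO K A B M P)
    (hne : (A : Set W).Nonempty) (h1 : Str K A M') (h2 : Str K M' M) :
    ∃ P' : L.Substructure W, IsPO K A B M' P' ∧ IsPO K M' P' M P := by
  have : Nonempty W := ⟨hne.some⟩
  obtain ⟨W₃, _, φ₁, φ₂, A₃, B₃, M₃, a1, b1, -, m2, he, h3⟩ :=
    exists_po hpo hne h.1.ab h1 (isoOn_id A)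
  obtain ⟨W₄, _, ψ₁, ψ₂, N₄, M₄, P₄, c1, c2, c3, c4, he', h4⟩ :=
    exists_po hpo (hne.mono h1.le) h2 h3.1.mp m2
  have : Nonempty W₃ := ⟨φ₁ hne.some⟩
  have : Nonempty W₄ := ⟨ψ₁ hne.some⟩
  obtain ⟨A₄, -, d1⟩ := c4.restrict (le_top : A₃ ≤ ⊤)
  obtain ⟨B₄, -, d2⟩ := c4.restrict (le_top : B₃ ≤ ⊤)
  have h5 := h3.iso d1 d2 c3 c4
  obtain ⟨χ, k0, e1, e2⟩ := h.1.unique (h5.paste h4.symm).1 (d1.comp a1) (d2.comp b1) c2
    fun x hx => (congrArg ψ₂ (he hx)).trans (he' (h1.le hx)).symm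
  obtain ⟨χ', k1, k2, -⟩ := k0.exists_symm
  obtain ⟨P', -, k3⟩ := k1.restrict (le_top : P₄ ≤ ⊤)
  have k4 := po2_inv k1 k2 (h2.le.trans h.1.mp.le) (c1.congr (e2.mono h2.le))
  exact ⟨P', h5.iso (po2_inv k1 k2 (h.1.ab.le.trans h.1.bp.le) ((d1.comp a1).congr
    (e1.mono h.1.ab.le))) (po2_inv k1 k2 h.1.bp.le ((d2.comp b1).congr e1)) k4 k3,
    h4.symm.iso k4 k3 (po2_inv k1 k2 h.1.mp.le (c2.congr e2)) k1⟩

theorem isPO_refl {A B : L.Substructure W} (hne : (A : Set W).Nonempty) (h : Str K A B) :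
    IsPO K A B A B := by
  have : Nonempty W := ⟨hne.some⟩
  obtain ⟨W₃, _, φ₁, φ₂, A₃, B₃, M₃, a1, b1, a2, m2, he, h3⟩ :=
    exists_po (K := K) trivial hne h (str_refl h.mem_left) (isoOn_id A)
  obtain rfl : A₃ = M₃ := a2.unique m2
  obtain ⟨P', p1, p2⟩ := h3.prime (str_refl h3.1.bp.mem_right) h3.1.bp le_rfl h3.1.ab.le
  obtain rfl : P' = B₃ := le_antisymm p2.le p1.1.bp.le
  obtain ⟨χ, k1, k2, -⟩ := b1.exists_symm
  obtain ⟨A', -, k3⟩ := k1.restrict h3.1.ab.le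
  obtain rfl : A = A' := (isoOn_id A).unique ((k3.comp a1).congr fun x hx => k2 x (h.le hx))
  exact p1.iso k3 k1 k3 k1

theorem IsPO.triv {M P' P : L.Substructure W} (h : IsPO K M P' M P)
    (hne : (M : Set W).Nonempty) : P' = P := by
  obtain ⟨χ, k1, k2, -⟩ := (isPO_refl hne h.1.ab).1.unique h.1 (isoOn_id M) (isoOn_id P')
    (isoOn_id M) fun _ _ => rfl
  exact ((isoOn_id P').congr k2).unique k1

theorem IsPO.chain {ι : Type u} [LinearOrder ι] [WellFoundedLT ι] [Nonempty ι]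
    {A B M P : ι → L.Substructure W} {N : L.Substructure W} (hA : Monotone A) (hB : Monotone B)
    (hM : Monotone M) (hP : Monotone P) (hN : ∀ i, Str K (P i) N)
    (h : ∀ i, IsPO K (A i) (B i) (M i) (P i)) :
    IsPO K (⨆ i, A i) (⨆ i, B i) (⨆ i, M i) (⨆ i, P i) := by
  exact isPO_of_sq (Amalg.chain W ι A B M P hA hB hM
    (fun i j hij => (hN i).coh (hN j) (hP hij)) fun i => (h i).1.sq)

theorem IsPO.chain_nat {A B M P : ℕ → L.Substructure W} {N : L.Substructure W} (hA : Monotone A)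
    (hB : Monotone B) (hM : Monotone M) (hP : Monotone P) (hN : ∀ i, Str K (P i) N)
    (h : ∀ i, IsPO K (A i) (B i) (M i) (P i)) :
    IsPO K (⨆ i, A i) (⨆ i, B i) (⨆ i, M i) (⨆ i, P i) := by
  have e : ∀ F : ℕ → L.Substructure W, ⨆ i : ULift.{u} ℕ, F i.down = ⨆ i, F i := fun F =>
    le_antisymm (iSup_le fun i => le_iSup F i.down) (iSup_le fun i =>
      le_iSup (fun i : ULift.{u} ℕ => F i.down) ⟨i⟩)
  have := IsPO.chain (ι := ULift.{u} ℕ) (A := fun i => A i.down) (B := fun i => B i.down)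
    (M := fun i => M i.down) (P := fun i => P i.down) (fun _ _ k => hA k) (fun _ _ k => hB k)
    (fun _ _ k => hM k) (fun _ _ k => hP k) (fun i => hN i.down) fun i => h i.down
  rwa [e A, e B, e M, e P] at this

theorem amalg (hl : K.LSBound l) (hpo : HP K) {M₀ M₁ M₂ : Type u} [L.Structure M₀]
    [L.Structure M₁] [L.Structure M₂] (f₁ : M₀ ↪[L] M₁) (f₂ : M₀ ↪[L] M₂)
    (h₁ : K.Strong M₁ f₁.toHom.range) (h₂ : K.Strong M₂ f₂.toHom.range) {n : Cardinal.{u}}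
    (hn : l ≤ n) (c₁ : #M₁ ≤ n) (c₂ : #M₂ ≤ n) :
    ∃ (P : Type u) (_ : L.Structure P) (g₁ : M₁ ↪[L] P) (g₂ : M₂ ↪[L] P),
      K.Strong P g₁.toHom.range ∧ K.Strong P g₂.toHom.range ∧ (∀ x, g₁ (f₁ x) = g₂ (f₂ x)) ∧
      #P ≤ n := by
  obtain ⟨P, _, g₁, g₂, hc, hu⟩ := Amalg.ex (K := K) M₀ M₁ M₂ f₁ f₂ h₁ h₂
  have s₁ := (str_top_iff _).1 (isPO_of_sq hu).1.bp
  have s₂ := (str_top_iff _).1 (isPO_of_sq hu).1.mp
  have hi : ℵ₀ ≤ n := hl.inf.trans hn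
  obtain ⟨A, hA, hs, hAc⟩ := exists_str_ls hl hn (mem_top_iff.2 (K.mem_of_strong_right P _ s₁))
    (range g₁ ∪ range g₂) (fun _ _ => trivial)
    (card_union_le hi (mk_range_le.trans c₁) (mk_range_le.trans c₂))
  have hA' : K.Strong P A.subtype.toHom.range := (strong_subtype A).2 ((str_top_iff A).1 hA)
  refine ⟨A, inferInstance, g₁.codRestrict A fun x => hs (Or.inl ⟨x, rfl⟩),
    g₂.codRestrict A fun x => hs (Or.inr ⟨x, rfl⟩), strong_coh _ A.subtype ?_ hA',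
    strong_coh _ A.subtype ?_ hA', fun x => Subtype.ext (hc x), hAc⟩
  · rw [Language.Embedding.subtype_comp_codRestrict]
    exact s₁
  · rw [Language.Embedding.subtype_comp_codRestrict]
    exact s₂

end Vale.Agent.P307C
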