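import Vale.Agent.P307C.Defs
import Vale.Agent.P307P.Emb

/-! Disjoint pushouts along homomorphisms form an amalgamation notion. -/

open Cardinal FirstOrder Set
open FirstOrder.Language.Structure

universe u

namespace Vale.Agent.P307C

open Vale.Agent.P307P

variable {L : FirstOrder.Language.{u, u}} {K : AEC L}
  {W W' : Type u} [L.Structure W] [L.Structure W']

theorem pa_self {A : L.Substructure W} (h : K.Mem A) : IsPO K A A A A :=
  ⟨⟨str_refl h, str_refl h, str_refl h, str_refl h,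
    fun _ _ _ _ φ _ a _ c _ e => ⟨φ, a, c, fun _ _ => rfl, e.symm⟩,
    fun _ _ _ _ _ _ _ _ _ _ e _ => e⟩, inf_idem A⟩

theorem pa_empty (h : IsEmpty W) (A B : L.Substructure W) : A = B :=
  SetLike.ext fun x => h.elim x

theorem pa_str {ι : Type u} [LinearOrder ι] [WellFoundedLT ι] [Nonempty ι]
    {A P : ι → L.Substructure W} (hA : Monotone A) (hP : ∀ i j, i ≤ j → Str K (P i) (P j))
    (h : ∀ i, Str K (A i) (P i)) : Str K (⨆ i, A i) (⨆ i, P i) :=
  str_chain_smooth A hA fun i => (h i).trans (str_chain_union P hP i)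

theorem pa_chain {ι : Type u} [LinearOrder ι] [WellFoundedLT ι] [Nonempty ι]
    {A B M P : ι → L.Substructure W} (hA : Monotone A) (hB : Monotone B) (hM : Monotone M)
    (hP : ∀ i j, i ≤ j → Str K (P i) (P j)) (h : ∀ i, IsPO K (A i) (B i) (M i) (P i)) :
    IsPO K (⨆ i, A i) (⨆ i, B i) (⨆ i, M i) (⨆ i, P i) := by
  have hm : Monotone P := fun i j hij => (hP i j hij).le
  have s0 := pa_str hA hP fun i => (h i).1.ab.trans (h i).1.bp
  have s1 := pa_str hB hP fun i => (h i).1.bp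
  have s2 := pa_str hM hP fun i => (h i).1.mp
  have l1 : ⨆ i, A i ≤ ⨆ i, B i := iSup_mono fun i => (h i).1.ab.le
  have l2 : ⨆ i, A i ≤ ⨆ i, M i := iSup_mono fun i => (h i).1.am.le
  refine ⟨⟨s0.coh s1 l1, s0.coh s2 l2, s1, s2, fun W' _ D hD φ ψ h1 h2 h3 h4 h5 => ?_,
    fun W' _ D hD χ χ' h1 h2 h3 h4 h5 h6 y hy => ?_⟩, le_antisymm (fun y hy => ?_) (le_inf l1 l2)⟩
  · choose χ a1 a2 a3 a4 using fun i => (h i).1.ex W' D hD φ ψ (h1.mono (le_iSup B i))
      (h2.mono (le_iSup M i)) (h3.mono_left (le_iSup B i)) (h4.mono_left (le_iSup M i))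
      (h5.mono (le_iSup A i))
    obtain ⟨χ', b1, b2⟩ := homOn_chain χ P a1 hm fun i j hij =>
      (h i).1.uq W' D hD _ _ (a1 i) ((a1 j).mono (hm hij)) (a2 i) ((a2 j).mono_left (hm hij))
        ((a3 i).symm.trans ((a3 j).mono (hB hij))) ((a4 i).symm.trans ((a4 j).mono (hM hij)))
    refine ⟨χ', b1, fun y hy => ?_, fun y hy => ?_, fun y hy => ?_⟩
    · obtain ⟨i, hi⟩ := (mem_iSup_mono P hm y).1 hy
      rw [← b2 i hi]
      exact a2 i hi
    · obtain ⟨i, hi⟩ := (mem_iSup_mono B hB y).1 hy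
      exact (a3 i hi).trans (b2 i ((h i).1.bp.le hi))
    · obtain ⟨i, hi⟩ := (mem_iSup_mono M hM y).1 hy
      exact (a4 i hi).trans (b2 i ((h i).1.mp.le hi))
  · obtain ⟨i, hi⟩ := (mem_iSup_mono P hm y).1 hy
    have e := le_iSup P i
    exact (h i).1.uq W' D hD χ χ' (h1.mono e) (h2.mono e) (h3.mono_left e) (h4.mono_left e)
      (h5.mono (le_iSup B i)) (h6.mono (le_iSup M i)) hi
  · obtain ⟨i, hi⟩ := (mem_iSup_mono B hB y).1 hy.1
    obtain ⟨j, hj⟩ := (mem_iSup_mono M hM y).1 hy.2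
    have : y ∈ B (max i j) ⊓ M (max i j) := ⟨hB (le_max_left i j) hi, hM (le_max_right i j) hj⟩
    rw [(h _).2] at this
    exact le_iSup A _ this

theorem pa_lift {M P Q : Type u} [L.Structure M] [L.Structure P] [L.Structure Q] (g : M ↪[L] P)
    {D : L.Substructure Q} {α : P → Q} (h : HomOn α g.toHom.range)
    (m : MapsTo α g.toHom.range D) : ∃ k : M →[L] D, ∀ x, (k x : Q) = α (g x) := by
  obtain ⟨k, hk⟩ := h.exists_hom m
  exact ⟨k.comp g.equivRange.toHom, fun x => hk _⟩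

theorem pa_ex (hpo : K.HasPushouts) (M₀ M₁ M₂ : Type u) [L.Structure M₀] [L.Structure M₁]
    [L.Structure M₂] (f₁ : M₀ ↪[L] M₁) (f₂ : M₀ ↪[L] M₂) (h₁ : K.Strong M₁ f₁.toHom.range)
    (h₂ : K.Strong M₂ f₂.toHom.range) :
    ∃ (P : Type u) (_ : L.Structure P) (g₁ : M₁ ↪[L] P) (g₂ : M₂ ↪[L] P),
      (∀ x, g₁ (f₁ x) = g₂ (f₂ x)) ∧
      IsPO K (g₁.comp f₁).toHom.range g₁.toHom.range g₂.toHom.range ⊤ := by
  obtain ⟨P, _, g₁, g₂, s1, s2, hc, hd, hu⟩ := hpo M₀ M₁ M₂ f₁ f₂ h₁ h₂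
  have he : g₁.comp f₁ = g₂.comp f₂ := Language.Embedding.ext hc
  have t1 : Str K (g₁.comp f₁).toHom.range g₁.toHom.range := (emb_iff f₁ g₁).2 h₁
  have t2 : Str K (g₁.comp f₁).toHom.range g₂.toHom.range := he ▸ (emb_iff f₂ g₂).2 h₂
  refine ⟨P, inferInstance, g₁, g₂, hc,
    ⟨t1, t2, (str_top_iff _).2 s1, (str_top_iff _).2 s2, ?_, ?_⟩, ?_⟩
  · intro W₄ _ D hD α β hα hβ mα mβ hαβ
    obtain ⟨k₁, e₁⟩ := pa_lift g₁ hα mα
    obtain ⟨k₂, e₂⟩ := pa_lift g₂ hβ mβ
    obtain ⟨h, ⟨p1, p2⟩, -⟩ := hu D hD k₁ k₂ fun x => by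
      refine Subtype.ext ?_
      rw [e₁, e₂, ← hc]
      exact hαβ ⟨x, rfl⟩
    refine ⟨fun z => h z, homOn_of_hom ((D.subtype.toHom.comp h).comp
      (Language.Substructure.subtype ⊤).toHom) fun _ => rfl, fun z _ => (h z).2, ?_, ?_⟩
    · rintro _ ⟨y, rfl⟩
      show α (g₁ y) = h (g₁ y)
      rw [p1, e₁]
    · rintro _ ⟨y, rfl⟩
      show β (g₂ y) = h (g₂ y)
      rw [p2, e₂]
  · intro W₄ _ D hD χ χ' h1 h2 m1 m2 q1 q2
    obtain ⟨a, ha⟩ := h1.exists_hom m1
    obtain ⟨b, hb⟩ := h2.exists_hom m2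
    let t : P →[L] (⊤ : L.Substructure P) := Language.Substructure.topEquiv.symm.toHom
    obtain ⟨h, -, hh⟩ := hu D hD ((a.comp t).comp g₁.toHom) ((a.comp t).comp g₂.toHom) fun x =>
      congrArg (a.comp t) (hc x)
    have hab : a.comp t = b.comp t := by
      rw [hh (a.comp t) ⟨fun _ => rfl, fun _ => rfl⟩, hh (b.comp t) ⟨fun y => ?_, fun y => ?_⟩]
      · refine Subtype.ext ((hb _).trans (Eq.trans ?_ (ha _).symm))
        exact (q1 ⟨y, rfl⟩).symm
      · refine Subtype.ext ((hb _).trans (Eq.trans ?_ (ha _).symm))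
        exact (q2 ⟨y, rfl⟩).symm
    intro z _
    have := congrArg (fun f : P →[L] D => (f z : W₄)) hab
    exact (ha (t z)).symm.trans (this.trans (hb (t z)))
  · refine le_antisymm ?_ (le_inf t1.le t2.le)
    rintro _ ⟨⟨y, rfl⟩, z, hz⟩
    obtain ⟨x, rfl⟩ := hd y z hz.symm
    exact ⟨x, rfl⟩

theorem amalg_of_pushouts (hpo : K.HasPushouts) : Nonempty (Amalg K) :=
  ⟨{ Sq := fun _ _ A B M P => IsPO K A B M P
     str := fun _ _ _ _ _ _ h => ⟨h.1.ab, h.1.am, h.1.bp, h.1.mp, h.2⟩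
     iso := fun W _ _ _ A B M P A' B' M' P' φ a b c d h => by
       rcases isEmpty_or_nonempty W with he | he
       · obtain rfl := pa_empty he A B
         obtain rfl := pa_empty he A M
         obtain rfl := pa_empty he A P
         obtain rfl := a.unique b
         obtain rfl := a.unique c
         obtain rfl := a.unique d
         exact pa_self (a.mem h.1.ab.mem_left)
       · exact h.iso a b c d
     ex := pa_ex hpo
     uq := fun W _ _ _ A B M P A' B' M' P' φ ψ h h' a b c e => by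
       rcases isEmpty_or_nonempty W with he | he
       · obtain rfl := pa_empty he A B
         obtain rfl := pa_empty he A M
         obtain rfl := pa_empty he A P
         obtain rfl := a.unique b
         obtain rfl := (a.congr e).unique c
         have k : P' ≤ A' := h'.1.le h'.1.bp.mem_right h'.1.ab.mem_left le_rfl h'.1.bp.le le_rfl
           le_rfl
         obtain rfl := le_antisymm k h'.1.bp.le
         exact ⟨φ, a, fun _ _ => rfl, e.symm⟩
       · exact h.1.unique h'.1 a b c e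
     symm := fun _ _ _ _ _ _ h => h.symm
     paste := fun _ _ _ _ _ _ _ _ h1 h2 => h1.paste h2
     chain := fun _ _ _ _ _ _ _ _ _ _ a b c d e => pa_chain a b c d e
     prime := fun _ _ _ _ _ P _ _ h a b c d => ⟨id, P, isoOn_id P,
       a.coh b (h.1.le a.mem_right b.mem_left a.le b.le c d), fun _ _ => rfl, fun _ _ => rfl⟩ }⟩

end Vale.Agent.P307C
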