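import Vale.Agent.P307C.Po

/-! The limit step of the reorganisation: `isoOn_chain`, `Q'` is monotone (`IsoOn.le` after `congr`),
`IsPO.chain` with `N := ⊤`, `iSup_const`, the corner `⨆ i, E ⊓ Q i = E ⊓ ⨆ i, Q i` (`mem_iSup_mono`),
`str_chain_smooth`, `card_iSup_le`. -/

open Cardinal FirstOrder Set
open FirstOrder.Language.Structure

universe u

namespace Vale.Agent.P307C

open Vale.Agent.P307P

variable {L : FirstOrder.Language.{u, u}} {K : AEC L} [Amalg K] {l θ : Cardinal.{u}}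
  {W W' W'' : Type u} [L.Structure W] [L.Structure W'] [L.Structure W'']

theorem re_lim {ι : Type u} [LinearOrder ι] [WellFoundedLT ι] [Nonempty ι] (hθ : ℵ₀ ≤ θ)
    (hι : #ι ≤ θ) {E : L.Substructure W} (ψ : ι → W → W) (Q Q' H : ι → L.Substructure W)
    (hQ : Monotone Q) (hH : Monotone H) (h1 : ∀ i, IsoOn (ψ i) (Q i) (Q' i))
    (h2 : ∀ i j, i ≤ j → EqOn (ψ i) (ψ j) (Q i))
    (h3 : ∀ i, EqOn (ψ i) id (E ⊓ Q i : L.Substructure W))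
    (h4 : ∀ i, IsPO K (E ⊓ Q i) E (Q' i) (H i)) (h5 : ∀ i, Str K (H i) ⊤) (h6 : ∀ i, #(H i) ≤ θ) :
    ∃ (χ : W → W) (U' : L.Substructure W), IsoOn χ (⨆ i, Q i) U' ∧ (∀ i, EqOn (ψ i) χ (Q i)) ∧
      EqOn χ id (E ⊓ ⨆ i, Q i : L.Substructure W) ∧ IsPO K (E ⊓ ⨆ i, Q i) E U' (⨆ i, H i) ∧
      Str K (⨆ i, H i) ⊤ ∧ #(⨆ i, H i : L.Substructure W) ≤ θ := by
  obtain ⟨χ, c1, c2⟩ := isoOn_chain ψ Q Q' h1 hQ h2
  have k : ∀ i, IsoOn χ (Q i) (Q' i) := fun i => (h1 i).congr (c2 i)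
  have hQ' : Monotone Q' := fun i j hij => (k i).le (k j) (hQ hij)
  have hE : Monotone fun i => E ⊓ Q i := fun i j hij => inf_le_inf_left E (hQ hij)
  have e : (⨆ i, E ⊓ Q i) = E ⊓ ⨆ i, Q i := by
    refine le_antisymm (iSup_le fun i => inf_le_inf_left E (le_iSup Q i)) fun x hx => ?_
    obtain ⟨i, hi⟩ := (mem_iSup_mono Q hQ x).1 hx.2
    exact (mem_iSup_mono _ hE x).2 ⟨i, hx.1, hi⟩
  have p := IsPO.chain (B := fun _ => E) hE monotone_const hQ' hH h5 h4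
  rw [e, iSup_const] at p
  refine ⟨χ, ⨆ i, Q' i, c1, c2, fun x hx => ?_, p, str_chain_smooth H hH h5,
    card_iSup_le H hH hθ hι h6⟩
  obtain ⟨i, hi⟩ := (mem_iSup_mono Q hQ x).1 hx.2
  exact (c2 i hi).symm.trans (h3 i ⟨hx.1, hi⟩)

end Vale.Agent.P307C
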