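import Vale.Agent.P307C.Re0
import Vale.Agent.P307C.Re1

/-! Reorganisation: `G` is a tower over every closed submodel. `rec_chain` on tuples `(ψ, Q', H, H', B')`:
`G x a` = conclusion of `re_step` plus `∃ U', IsoOn ψ (U x) U' ∧ IsPO (E ⊓ U x) E U' H` (use `congr` with `EqOn ψ ψ₁ (U x)`);
`R y x a b := EqOn a.ψ b.ψ (Q y) ∧ a.H' ≤ b.H`; `C x r a := ∀ c, c ∈ a.H ↔ c ∈ E ∨ ∃ y : Iio x, c ∈ (r y).H'`.
Before the step: if `Iio x` is empty, `U x = A` (`U_min`), `ψ = id`, `H = E`, `E ⊓ A = A`, `isPO_refl`; otherwise `U_eq` and `re_lim`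
over `Iio x`. At the end `G_eq`, `re_lim` over `X`, `E ⊓ G = E`, `symm`, `IsPO.triv` give `G' = ⨆ x, H' x`. -/

open Cardinal FirstOrder Set
open FirstOrder.Language.Structure

universe u

namespace Vale.Agent.P307C

open Vale.Agent.P307P

variable {L : FirstOrder.Language.{u, u}} {K : AEC L} [Amalg K] {l θ : Cardinal.{u}}
  {W W' W'' : Type u} [L.Structure W] [L.Structure W'] [L.Structure W'']
  {X : Type u} [LinearOrder X] [WellFoundedLT X] {A B₀ G₀ G E : L.Substructure W} {D S T : Set X}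
  {B U Q : X → L.Substructure W}

/-- the data carried along the recursion -/
structure re_T (L : FirstOrder.Language.{u, u}) (W : Type u) [L.Structure W] : Type u where
  ψ : W → W
  Q' : L.Substructure W
  H : L.Substructure W
  H' : L.Substructure W
  B' : L.Substructure W

/-- the invariant of the recursion -/
structure re_G (K : AEC L) [Amalg K] (θ : Cardinal.{u}) (A B₀ E : L.Substructure W) (T : Set X)
    (U Q : X → L.Substructure W) (x : X) (a : re_T L W) : Prop where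
  iso : IsoOn a.ψ (Q x) a.Q'
  fix : EqOn a.ψ id (E ⊓ Q x : L.Substructure W)
  po : IsPO K (E ⊓ Q x) E a.Q' a.H'
  top : Str K a.H' ⊤
  card : #a.H' ≤ θ
  le : a.H ≤ a.H'
  new : x ∉ T → (∃ φ : W → W, IsoOn φ B₀ a.B' ∧ EqOn φ id A) ∧ IsPO K A a.B' a.H a.H'
  old : x ∈ T → a.H' = a.H
  pre : ∃ U' : L.Substructure W, IsoOn a.ψ (U x) U' ∧ IsPO K (E ⊓ U x) E U' a.H

theorem re_un {ι : Type u} [LinearOrder ι] [WellFoundedLT ι] [Nonempty ι]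
    (h : Std K l θ A B₀ G B U Q) (hι : #ι ≤ θ) (e : ι → X) (he : Monotone e) (r : ι → re_T L W)
    (hG : ∀ j, re_G K θ A B₀ E T U Q (e j) (r j))
    (hR : ∀ j k, j < k → EqOn (r j).ψ (r k).ψ (Q (e j)) ∧ (r j).H' ≤ (r k).H) :
    ∃ (χ : W → W) (U' P : L.Substructure W), IsoOn χ (⨆ i, Q (e i)) U' ∧
      (∀ i, EqOn (r i).ψ χ (Q (e i)) ∧ (r i).H' ≤ P) ∧
      EqOn χ id (E ⊓ ⨆ i, Q (e i) : L.Substructure W) ∧ IsPO K (E ⊓ ⨆ i, Q (e i)) E U' P ∧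
      Str K P ⊤ ∧ #P ≤ θ ∧ ∀ c, c ∈ P ↔ c ∈ E ∨ ∃ i, c ∈ (r i).H' := by
  have hH : Monotone fun i => (r i).H' := fun i j hij => by
    rcases hij.eq_or_lt with rfl | hlt
    · exact le_rfl
    · exact (hR i j hlt).2.trans (hG j).le
  have hQ : Monotone fun i => Q (e i) := fun i j hij => h.tow.mono (mem_univ _) (he hij)
  have h2 : ∀ i j, i ≤ j → EqOn (r i).ψ (r j).ψ (Q (e i)) := fun i j hij => by
    rcases hij.eq_or_lt with rfl | hlt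
    · exact fun _ _ => rfl
    · exact (hR i j hlt).1
  obtain ⟨χ, U', a1, a2, a3, a4, a5, a6⟩ := re_lim (K := K) (E := E) h.mon.inf hι
    (fun i => (r i).ψ) (fun i => Q (e i)) (fun i => (r i).Q') (fun i => (r i).H') hQ hH
    (fun i => (hG i).iso) h2 (fun i => (hG i).fix) (fun i => (hG i).po) (fun i => (hG i).top)
    (fun i => (hG i).card)
  refine ⟨χ, U', _, a1, fun i => ⟨a2 i, le_iSup (fun i => (r i).H') i⟩, a3, a4, a5, a6,
    fun c => ⟨fun hc => Or.inr ((mem_iSup_mono _ hH c).1 hc), fun hc => ?_⟩⟩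
  rcases hc with hc | hc
  · exact a4.1.bp.le hc
  · exact (mem_iSup_mono _ hH c).2 hc

theorem re_pre (h : Std K l θ A B₀ G B U Q) (hE : Cl K A G U Q E T) (x : X)
    (r : Iio x → re_T L W) (hG : ∀ j : Iio x, re_G K θ A B₀ E T U Q j (r j))
    (hR : ∀ j k : Iio x, j < k → EqOn (r j).ψ (r k).ψ (Q j) ∧ (r j).H' ≤ (r k).H) :
    ∃ (χ : W → W) (U' P : L.Substructure W), IsoOn χ (U x) U' ∧
      (∀ i : Iio x, EqOn (r i).ψ χ (Q i) ∧ (r i).H' ≤ P) ∧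
      EqOn χ id (E ⊓ U x : L.Substructure W) ∧ IsPO K (E ⊓ U x) E U' P ∧
      Str K P ⊤ ∧ #P ≤ θ ∧ ∀ c, c ∈ P ↔ c ∈ E ∨ ∃ i, c ∈ (r i).H' := by
  rcases isEmpty_or_nonempty (Iio x) with h0 | h0
  · have hs : Str K E ⊤ := hE.str.trans h.top
    rw [h.tow.U_min (mem_univ x), inf_eq_right.2 hE.le]
    exact ⟨id, A, E, isoOn_id A, fun i => h0.elim i, fun _ _ => rfl,
      isPO_refl h.tow.ne (h.tow.top₀.coh hs hE.le), hs, (card_mono hE.str.le).trans h.card,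
      fun c => ⟨Or.inl, fun hc => hc.elim id fun ⟨i, _⟩ => h0.elim i⟩⟩
  · rw [h.tow.U_eq (mem_univ x)]
    exact re_un h ((Cardinal.mk_set_le _).trans h.idx) (fun i : Iio x => (i : X))
      (fun _ _ hij => hij) r hG hR

theorem re_rec (h : Std K l θ A B₀ G B U Q) (hE : Cl K A G U Q E T) :
    ∃ F : X → re_T L W, (∀ x, re_G K θ A B₀ E T U Q x (F x)) ∧
      (∀ y x, y < x → EqOn (F y).ψ (F x).ψ (Q y) ∧ (F y).H' ≤ (F x).H) ∧
      ∀ x c, c ∈ (F x).H ↔ c ∈ E ∨ ∃ y : Iio x, c ∈ (F y).H' := by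
  have : Nonempty (re_T L W) := ⟨⟨id, A, A, A, A⟩⟩
  refine rec_chain (fun x a => re_G K θ A B₀ E T U Q x a)
    (fun y _ a b => EqOn a.ψ b.ψ (Q y) ∧ a.H' ≤ b.H)
    (fun x r a => ∀ c, c ∈ a.H ↔ c ∈ E ∨ ∃ y : Iio x, c ∈ (r y).H') fun x r hG hR => ?_
  obtain ⟨χ, U', P, a1, a2, a3, a4, a5, a6, a7⟩ := re_pre h hE x r hG hR
  obtain ⟨ψ₁, Q', H', B', b1, b2, b3, b4, b5, b6, b7, b8, b9⟩ := h.re_step hE x a1 a3 a4 a5 a6
  refine ⟨⟨ψ₁, Q', P, H', B'⟩, ⟨b1, b3, b4, b5, b6, b7, b8, b9, U', a1.congr b2, a4⟩,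
    fun j => ⟨fun c hc => ?_, (a2 j).2⟩, a7⟩
  exact ((a2 j).1 hc).trans (b2 (h.tow.QU (mem_univ x) j.2 hc))

theorem Std.re [Nonempty X] (h : Std K l θ A B₀ G B U Q) (hE : Cl K A G U Q E T) :
    ∃ (ψ : W → W) (G' : L.Substructure W) (B' H H' : X → L.Substructure W), IsoOn ψ G G' ∧
      EqOn ψ id E ∧ Str K G' ⊤ ∧ Tow K A B₀ E univ Tᶜ B' H H' ∧
      (∀ c, c ∈ G' ↔ c ∈ E ∨ ∃ x, c ∈ H' x) ∧
      ∀ m, ∃ U' : L.Substructure W, IsoOn ψ (U m) U' ∧ IsPO K (E ⊓ U m) E U' (H m) := by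
  obtain ⟨F, hG, hR, hC⟩ := re_rec h hE
  obtain ⟨χ, G', P, a1, a2, a3, a4, a5, -, a7⟩ :=
    re_un h h.idx (fun x : X => x) (fun _ _ hij => hij) F hG hR
  rw [← h.G_eq] at a1 a3 a4
  rw [inf_eq_left.2 hE.str.le] at a3 a4
  have hs : Str K E ⊤ := hE.str.trans h.top
  obtain rfl : G' = P := a4.symm.triv (h.tow.ne.mono hE.le)
  refine ⟨χ, G', fun x => (F x).B', fun x => (F x).H, fun x => (F x).H', a1, a3, a5,
    ⟨isLowerSet_univ, h.tow.ne, h.tow.top₀.coh hs hE.le, hs, fun x _ hx => ((hG x).new hx).1,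
      fun x _ hx => ((hG x).new hx).2, fun x _ hx => (hG x).old (not_not.1 hx),
      fun x _ => (hG x).top, fun x _ c => (hC x c).trans (or_congr_right ?_)⟩, a7, fun m => ?_⟩
  · exact ⟨fun ⟨y, hy⟩ => ⟨y, y.2, hy⟩, fun ⟨y, h1, hy⟩ => ⟨⟨y, h1⟩, hy⟩⟩
  · obtain ⟨U', c1, c2⟩ := (hG m).pre
    exact ⟨U', c1.congr fun c hc => (a2 m).1 (h.tow.UQ (Set.mem_univ m) hc), c2⟩

end Vale.Agent.P307C
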