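import Vale.Agent.P307C.Tw0
import Vale.Agent.P307C.Mon1

/-! One step of the reorganisation. Note `A ≤ E ⊓ U x`, so `ψ` fixes `A`, and `A ≤ U'`.
Case `x ∉ T`: `Mon.po_exists` gives `IsPO A B' H H'` with `B'` a copy of `B x`; split at `U'`: `IsPO A B' U' Q'`, `IsPO U' Q' H H'`;
`PrePO.unique` of `h.tow.po x` and the first extends `ψ`; `(hH.symm … )`: paste `IsPO (E ⊓ U x) E U' H` with the `symm` of the second;
use `hE.idle`. Case `x ∈ T`: split `hH.symm` at `E ⊓ Q x` (strong: `(hE.act x).1.ab`, and `Str.coh` inside `G`):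
`IsPO (E ⊓ U x) U' (E ⊓ Q x) Q'`, `IsPO (E ⊓ Q x) Q' E H`; `PrePO.unique` of `hE.act x` and the `symm` of the first
(with `φ = id`), `H' = H`. -/

open Cardinal FirstOrder Set
open FirstOrder.Language.Structure

universe u

namespace Vale.Agent.P307C

open Vale.Agent.P307P

variable {L : FirstOrder.Language.{u, u}} {K : AEC L} [Amalg K] {l θ : Cardinal.{u}}
  {W W' W'' : Type u} [L.Structure W] [L.Structure W'] [L.Structure W'']
  {X : Type u} [LinearOrder X] [WellFoundedLT X] {A B₀ G₀ G E : L.Substructure W} {D S T : Set X}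
  {B U Q : X → L.Substructure W}

theorem Std.re_step (h : Std K l θ A B₀ G B U Q) (hE : Cl K A G U Q E T) (x : X) {ψ : W → W}
    {U' H : L.Substructure W} (hψ : IsoOn ψ (U x) U') (hid : EqOn ψ id (E ⊓ U x : L.Substructure W))
    (hH : IsPO K (E ⊓ U x) E U' H) (hs : Str K H ⊤) (hc : #H ≤ θ) :
    ∃ (ψ₁ : W → W) (Q' H' B' : L.Substructure W), IsoOn ψ₁ (Q x) Q' ∧ EqOn ψ ψ₁ (U x) ∧
      EqOn ψ₁ id (E ⊓ Q x : L.Substructure W) ∧ IsPO K (E ⊓ Q x) E Q' H' ∧ Str K H' ⊤ ∧ #H' ≤ θ ∧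
      H ≤ H' ∧ (x ∉ T → (∃ φ : W → W, IsoOn φ B₀ B' ∧ EqOn φ id A) ∧ IsPO K A B' H H') ∧
      (x ∈ T → H' = H) := by
  have hne := h.tow.ne
  have hAU : A ≤ U x := h.tow.le_U (mem_univ x)
  have hAF : A ≤ E ⊓ U x := le_inf hE.le hAU
  have hpo := h.tow.po x (mem_univ x) (mem_univ x)
  by_cases hx : x ∈ T
  · have a := hE.act x hx
    have s1 : Str K (E ⊓ Q x) E := (a.1.bp.trans (h.strQ x)).coh hE.str inf_le_left
    obtain ⟨Q', p1, p2⟩ := hH.symm.split trivial (hne.mono hAF) a.1.ab s1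
    obtain ⟨χ, c1, c2, c3⟩ := a.1.unique p1.symm.1 (φ := id) (ψ := ψ) (isoOn_id _) (isoOn_id _) hψ
      hid.symm
    exact ⟨χ, Q', H, A, c1, c3, c2.symm, p2.symm, hs, hc, le_rfl, fun h' => absurd hx h',
      fun _ => rfl⟩
  · have hψA : EqOn ψ id A := hid.mono hAF
    have s1 : Str K A U' := hψ.str ((isoOn_id A).congr hψA.symm) hpo.1.am
    obtain ⟨φ₀, b1, b2⟩ := h.tow.cp x (mem_univ x) (mem_univ x)
    have hB : #(B x) ≤ θ := b1.card_eq.trans_le (h.small.trans h.mon.le)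
    obtain ⟨φ, B', H', d1, d2, p, d3, d4⟩ :=
      h.mon.po_exists hne hpo.1.ab (s1.trans hH.1.mp) hs hB hc
    obtain ⟨Q', p1, p2⟩ := p.split trivial hne s1 hH.1.mp
    obtain ⟨χ, c1, -, c3⟩ := hpo.1.unique p1.1 (φ := φ) (ψ := ψ) ((isoOn_id A).congr d2.symm) d1 hψ
      (d2.trans hψA.symm)
    refine ⟨χ, Q', H', B', c1, c3, ?_, ?_, d3, d4, p.1.mp.le,
      fun _ => ⟨⟨φ ∘ φ₀, d1.comp b1, fun c hc => ?_⟩, p⟩, fun h' => absurd h' hx⟩
    · rw [hE.idle x hx]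
      exact fun c hc => (c3 hc.2).symm.trans (hid hc)
    · rw [hE.idle x hx]
      exact hH.paste p2.symm
    · exact (congrArg φ (b2 hc)).trans (d2 hc)

end Vale.Agent.P307C
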