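import Vale.Agent.P307C.Po

/-! Index dependent recursion. Copy the proof of `rec_family` in `Vale/Agent/P307P/Rec.lean`: choose a total
`g i r` with (hypotheses of `step` → conclusion), `rec_fix`, then well-founded induction on `i` for
`G i (F i) ∧ ∀ j < i, R j i (F j) (F i)`. -/

open Cardinal FirstOrder Set
open FirstOrder.Language.Structure

universe u

namespace Vale.Agent.P307C

open Vale.Agent.P307P

variable {L : FirstOrder.Language.{u, u}} {K : AEC L} [Amalg K] {l θ : Cardinal.{u}}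
  {W W' W'' : Type u} [L.Structure W] [L.Structure W'] [L.Structure W'']

theorem rec_chain {α ι : Type u} [LinearOrder ι] [WellFoundedLT ι] [Nonempty α]
    (G : ι → α → Prop) (R : ι → ι → α → α → Prop) (C : ∀ i : ι, (Iio i → α) → α → Prop)
    (step : ∀ (i : ι) (r : Iio i → α), (∀ j : Iio i, G j (r j)) →
      (∀ j k : Iio i, j < k → R j k (r j) (r k)) →
      ∃ a, G i a ∧ (∀ j : Iio i, R j i (r j) a) ∧ C i r a) :
    ∃ F : ι → α, (∀ i, G i (F i)) ∧ (∀ i j, i < j → R i j (F i) (F j)) ∧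
      ∀ i, C i (fun j => F j) (F i) := by
  have hG : ∀ (i : ι) (r : Iio i → α), ∃ a, (∀ j : Iio i, G j (r j)) →
      (∀ j k : Iio i, j < k → R j k (r j) (r k)) →
      G i a ∧ (∀ j : Iio i, R j i (r j) a) ∧ C i r a := by
    intro i r
    by_cases h1 : (∀ j : Iio i, G j (r j)) ∧ ∀ j k : Iio i, j < k → R j k (r j) (r k)
    · obtain ⟨a, ha⟩ := step i r h1.1 h1.2
      exact ⟨a, fun _ _ => ha⟩
    · exact ⟨Classical.arbitrary α, fun h2 h3 => (h1 ⟨h2, h3⟩).elim⟩
  choose g hg using hG
  obtain ⟨F, hF⟩ := rec_fix (ι := ι) (X := α) g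
  have key : ∀ i, G i (F i) ∧ (∀ j : Iio i, R j i (F j) (F i)) ∧ C i (fun j => F j) (F i) := by
    intro i
    induction i using WellFoundedLT.induction with
    | ind i ih =>
      have h1 := hg i (fun j => F j) (fun j => (ih j j.2).1) fun j k hjk =>
        (ih k k.2).2.1 ⟨j, hjk⟩
      rwa [← hF i] at h1
  exact ⟨F, fun i => (key i).1, fun i j h => (key j).2.1 ⟨i, h⟩, fun i => (key i).2.2⟩

end Vale.Agent.P307C
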