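import Vale.Agent.P307C.Base
import Vale.Agent.P307P.Trans

/-! Transport along an isomorphism of vocabularies. `Sq W A B M P` is `Sq` of the reduct with `trans_sub`; `Str` is
definitionally the same; `IsoOn` for `L'` and for the reducts are equivalent (`trans_fun`, `trans_rel`); `trans_sub` commutes with
`⊓` (`rfl` or `ext`) and with `⨆` of nonempty chains (`mem_iSup_mono` on both sides); new substructures come back by `trans_sub_surj`,
new structures by `trans_str`, `trans_emb_surj`. See `exists_transport` in `Vale/Agent/P307P/Trans.lean`. -/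

open Cardinal FirstOrder Set
open FirstOrder.Language.Structure

universe u

namespace Vale.Agent.P307C

open Vale.Agent.P307P

variable {L : FirstOrder.Language.{u, u}} {K : AEC L} [Amalg K] {l θ : Cardinal.{u}}
  {W W' W'' : Type u} [L.Structure W] [L.Structure W'] [L.Structure W'']

section
variable {L' : FirstOrder.Language.{u, u}} {M N : Type u} [L'.Structure M] [L'.Structure N]

theorem trans_isoOn (e : L ≃ᴸ L') {φ : M → N} {A : L'.Substructure M} {A' : L'.Substructure N} :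
    IsoOn φ A A' ↔ @IsoOn L M N (e.toLHom.reduct M) (e.toLHom.reduct N) φ
      (trans_sub e.toLHom A) (trans_sub e.toLHom A') := by
  refine ⟨fun h => ⟨h.1, fun n f => h.2.1 n _, fun n r => h.2.2 n _⟩,
    fun h => ⟨h.1, fun n f => ?_, fun n r => ?_⟩⟩
  · obtain ⟨f', rfl⟩ := trans_fun e f
    exact h.2.1 n f'
  · obtain ⟨r', rfl⟩ := trans_rel e r
    exact h.2.2 n r'

theorem trans_iSup (ψ : L →ᴸ L') {ι : Type u} [LinearOrder ι] [Nonempty ι]
    {A : ι → L'.Substructure M} (hA : Monotone A) :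
    letI := ψ.reduct M
    trans_sub ψ (⨆ i, A i) = ⨆ i, trans_sub ψ (A i) := by
  letI := ψ.reduct M
  ext x
  have h : Monotone fun i => trans_sub ψ (A i) := fun i j h => hA h
  exact (Language.Substructure.mem_iSup_of_directed hA.directed_le).trans
    (Language.Substructure.mem_iSup_of_directed h.directed_le).symm

end

theorem amalg_trans {L' : FirstOrder.Language.{u, u}} (e : L ≃ᴸ L') :
    Nonempty (Amalg (trans_aec e.toLHom K)) := by
  refine ⟨{
    Sq := fun W _ A B M P => @Amalg.Sq L K _ W (e.toLHom.reduct W) (trans_sub e.toLHom A)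
      (trans_sub e.toLHom B) (trans_sub e.toLHom M) (trans_sub e.toLHom P)
    str := fun W _ A B M P h => ?_
    iso := fun W W' _ _ A B M P A' B' M' P' φ h1 h2 h3 h4 h =>
      @Amalg.iso L K _ W W' (e.toLHom.reduct W) (e.toLHom.reduct W') _ _ _ _ _ _ _ _ φ
        ((trans_isoOn e).1 h1) ((trans_isoOn e).1 h2) ((trans_isoOn e).1 h3)
        ((trans_isoOn e).1 h4) h
    ex := fun M₀ M₁ M₂ _ _ _ f₁ f₂ h1 h2 => ?_
    uq := fun W W' _ _ A B M P A' B' M' P' φ ψ h h' h1 h2 h3 h4 => ?_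
    symm := fun W _ A B M P h => @Amalg.symm L K _ W (e.toLHom.reduct W) _ _ _ _ h
    paste := fun W _ A B M' P' M P h h' =>
      @Amalg.paste L K _ W (e.toLHom.reduct W) _ _ _ _ _ _ h h'
    chain := fun W _ ι _ _ _ A B M P h1 h2 h3 h4 h => ?_
    prime := fun W _ A B M P D N h h1 h2 h3 h4 => ?_ }⟩
  · obtain ⟨k1, k2, k3, k4, k5⟩ := @Amalg.str L K _ W (e.toLHom.reduct W) _ _ _ _ h
    refine ⟨k1, k2, k3, k4, SetLike.ext fun x => ?_⟩
    letI := e.toLHom.reduct W
    exact SetLike.ext_iff.1 k5 x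
  · obtain ⟨P, sP, g₁, g₂, k1, k2⟩ := @Amalg.ex L K _ M₀ M₁ M₂ (e.toLHom.reduct M₀)
      (e.toLHom.reduct M₁) (e.toLHom.reduct M₂) (trans_emb _ f₁) (trans_emb _ f₂) h1 h2
    obtain ⟨sP, rfl⟩ := trans_str e sP
    obtain ⟨g₁, rfl⟩ := trans_emb_surj e g₁
    obtain ⟨g₂, rfl⟩ := trans_emb_surj e g₂
    exact ⟨P, sP, g₁, g₂, k1, k2⟩
  · obtain ⟨χ, k1, k2⟩ := @Amalg.uq L K _ W W' (e.toLHom.reduct W) (e.toLHom.reduct W')
      _ _ _ _ _ _ _ _ φ ψ h h' ((trans_isoOn e).1 h1) ((trans_isoOn e).1 h2)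
      ((trans_isoOn e).1 h3) h4
    exact ⟨χ, (trans_isoOn e).2 k1, k2⟩
  · rw [trans_iSup _ h1, trans_iSup _ h2, trans_iSup _ h3,
      trans_iSup _ fun i j hij => (h4 i j hij).1]
    exact @Amalg.chain L K _ W (e.toLHom.reduct W) ι _ _ _ _ _ _ _ (fun i j h => h1 h)
      (fun i j h => h2 h) (fun i j h => h3 h) h4 h
  · obtain ⟨χ, P', k1, k2⟩ := @Amalg.prime L K _ W (e.toLHom.reduct W) _ _ _ _
      (trans_sub e.toLHom D) (trans_sub e.toLHom N) h h1 h2 h3 h4
    obtain ⟨P', rfl⟩ := trans_sub_surj e P'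
    exact ⟨χ, P', (trans_isoOn e).2 k1, k2⟩

end Vale.Agent.P307C
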