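import Vale.Agent.P307C.Main
import Vale.Agent.P307P.Det
import Vale.Agent.P307C.Trans

/-! From the tail theorem to a uniform threshold. -/

open Cardinal FirstOrder Set
open FirstOrder.Language.Structure

universe u

namespace Vale.Agent.P307C

open Vale.Agent.P307P

variable {L : FirstOrder.Language.{u, u}} {K : AEC L} {l θ : Cardinal.{u}}
  {W W' W'' : Type u} [L.Structure W] [L.Structure W'] [L.Structure W'']

theorem exists_transport {L' : FirstOrder.Language.{u, u}} (e : L ≃ᴸ L') (K : AEC L) :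
    ∃ K' : AEC L', (∀ l, K.LSBound l → K'.LSBound l) ∧ (Nonempty (Amalg K) → Nonempty (Amalg K')) ∧
      ∀ k, K.Categorical k ↔ K'.Categorical k := by
  refine ⟨trans_aec e.toLHom K, fun l h => ⟨(add_le_add_left (trans_card e) _).trans h.1,
    fun M _ hM s => ?_⟩, fun ⟨_⟩ => amalg_trans e, fun k => ⟨fun h => ⟨?_,
    fun M N _ _ hM hN h1 h2 => ?_⟩, fun h => ⟨?_, fun M N sM sN hM hN h1 h2 => ?_⟩⟩⟩
  · obtain ⟨A, hA⟩ := @h.2 M (e.toLHom.reduct M) hM s
    obtain ⟨A', rfl⟩ := trans_sub_surj e A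
    exact ⟨A', hA⟩
  · obtain ⟨M, sM, hM⟩ := h.1
    obtain ⟨sM, rfl⟩ := trans_str e sM
    exact ⟨M, sM, hM⟩
  · exact (@h.2 M N (e.toLHom.reduct M) (e.toLHom.reduct N) hM hN h1 h2).elim (trans_iso_surj e)
  · obtain ⟨M, sM, hM⟩ := h.1
    exact ⟨M, e.toLHom.reduct M, hM⟩
  · obtain ⟨sM, rfl⟩ := trans_str e sM
    obtain ⟨sN, rfl⟩ := trans_str e sN
    exact (h.2 M N hM hN h1 h2).map (trans_iso _)

theorem exists_bound (K : AEC L) (hl : K.LSBound l) (hpo : Nonempty (Amalg K)) :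
    ∃ b : Cardinal.{u}, (∀ k, b ≤ k → K.Categorical k) ∨ ∀ k, b ≤ k → ¬ K.Categorical k := by
  by_cases hu : ∀ c : Cardinal.{u}, ∃ k, c ≤ k ∧ K.Categorical k
  · obtain ⟨_⟩ := hpo
    obtain ⟨m, hm⟩ := Ctx.tail ⟨hl, trivial, hu⟩
    exact ⟨m, Or.inl hm⟩
  · push Not at hu
    obtain ⟨c, hc⟩ := hu
    exact ⟨c, Or.inr hc⟩

theorem fixed_lang (L : FirstOrder.Language.{u, u}) (l : Cardinal.{u}) :
    ∃ μ : Cardinal.{u}, ∀ K : AEC L, K.LSBound l → Nonempty (Amalg K) →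
      (∀ k, μ ≤ k → K.Categorical k) ∨ ∀ k, μ ≤ k → ¬ K.Categorical k := by
  let T := Set (Σ M : PM L l.out, L.Substructure M.s)
  let code : AEC L → T := fun K => {p | K.Strong p.1.s p.2}
  have hb : ∀ t : T, ∃ b : Cardinal.{u}, ∀ K : AEC L, K.LSBound l → Nonempty (Amalg K) → code K = t →
      (∀ k, b ≤ k → K.Categorical k) ∨ ∀ k, b ≤ k → ¬ K.Categorical k := by
    intro t
    by_cases ht : ∃ K : AEC L, K.LSBound l ∧ Nonempty (Amalg K) ∧ code K = t
    · obtain ⟨K₀, h1, h2, h3⟩ := ht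
      obtain ⟨b, hb⟩ := exists_bound K₀ h1 h2
      refine ⟨b, fun K k1 _ k3 => ?_⟩
      have hiff : ∀ k, K.Categorical k ↔ K₀.Categorical k := cat_iff_of_code k1 h1 (fun M A =>
        Set.ext_iff.1 (k3.trans h3.symm) ⟨M, A⟩)
      simp only [hiff]
      exact hb
    · exact ⟨0, fun K k1 k2 k3 => absurd ⟨K, k1, k2, k3⟩ ht⟩
  choose b hb using hb
  refine ⟨⨆ t, b t, fun K h1 h2 => ?_⟩
  have hle : b (code K) ≤ ⨆ t, b t := le_ciSup Cardinal.bddAbove_of_small _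
  rcases hb (code K) K h1 h2 rfl with h | h
  · exact Or.inl (fun k hk => h k (hle.trans hk))
  · exact Or.inr (fun k hk => h k (hle.trans hk))

theorem eventual (l : Cardinal.{u}) :
    ∃ μ : Cardinal.{u}, l ≤ μ ∧ ∀ (L : FirstOrder.Language.{u, u}) (K : AEC L), K.LSBound l →
      Nonempty (Amalg K) → ∀ k, μ ≤ k → K.Categorical k → ∀ k', μ ≤ k' → K.Categorical k' := by
  choose b hb using fun S : (ℕ → Set l.out) × (ℕ → Set l.out) => fixed_lang (subLang S) l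
  refine ⟨max l (⨆ S, b S), le_max_left _ _, fun L K h1 h2 k hk hc k' hk' => ?_⟩
  obtain ⟨S, ⟨e⟩⟩ := exists_subLang L (le_trans (self_le_add_right _ _) h1.1)
  obtain ⟨K', t1, t2, t3⟩ := exists_transport e K
  have hle : b S ≤ max l (⨆ S, b S) :=
    (le_ciSup Cardinal.bddAbove_of_small _).trans (le_max_right _ _)
  rcases hb S K' (t1 l h1) (t2 h2) with h | h
  · exact (t3 k').2 (h k' (hle.trans hk'))
  · exact absurd ((t3 k).1 hc) (h k (hle.trans hk))

end Vale.Agent.P307C
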