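import Vale.Agent.P307P.Solve0
import Vale.Agent.P307C.Po

/-! Solving all extension problems over a model. Let `θ = 2 ^ n`. Problems are indexed by the type
`T` of tuples `(B : PM L n.out, A : L.Substructure V, a : A ↪[L] B.s)`; `#T ≤ θ` (`card_problems`).
Copy `V` to `M₀ : PM L Ω` with `#Ω = Order.succ θ`; `rec_tasks` on `PM L Ω` with
`Good M := K.Mem M.s ∧ #M.s ≤ θ`, `Le := PM.Le K`, `Done (B, A, a) M :=` if the problem is
strong on both sides then it has a solution `g : B.s ↪ M.s` with `(g (a x) : Ω) = e x`;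
step: `amalg` and `PM.exists_rename` (the complement of a set of size `≤ θ` has size `succ θ`);
chain: `PM.exists_union`. An arbitrary problem is isomorphic to one in `T` by `PM.exists_copy`. -/

open Cardinal FirstOrder Set
open FirstOrder.Language.Structure

universe u

namespace Vale.Agent.P307C

open Vale.Agent.P307P

variable {L : FirstOrder.Language.{u, u}} {K : AEC L} [Amalg K] {l θ : Cardinal.{u}}
  {W W' W'' : Type u} [L.Structure W] [L.Structure W'] [L.Structure W'']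

/-- one amalgamation inside a fixed type -/
theorem solve_step (hl : K.LSBound l) (hpo : HP K) (hθ : l ≤ θ) {Ω : Type u}
    (hΩ : θ < #Ω) (M : PM L Ω) (hM : #M.s ≤ θ) {A B : Type u} [L.Structure A] [L.Structure B]
    (f : A ↪[L] M.s) (a : A ↪[L] B) (hf : K.Strong M.s f.toHom.range)
    (ha : K.Strong B a.toHom.range) (hB : #B ≤ θ) :
    ∃ N : PM L Ω, #N.s ≤ θ ∧ PM.Le K M N ∧
      ∃ g : B ↪[L] N.s, K.Strong N.s g.toHom.range ∧ ∀ x, (g (a x) : Ω) = f x := by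
  obtain ⟨P, _, g₁, g₂, h₁, h₂, h₃, h₄⟩ := amalg hl hpo f a hf ha hθ hM hB
  have : Infinite Ω := Cardinal.infinite_iff.2 ((hl.inf.trans hθ).trans hΩ.le)
  obtain ⟨N, e, hN, he⟩ := PM.exists_rename M g₁ h₁
    (by rw [Cardinal.mk_compl_of_infinite _ (hM.trans_lt hΩ)]; exact h₄.trans hΩ.le)
  refine ⟨N, (Cardinal.mk_congr e.toEquiv).symm.trans_le h₄, hN, e.toEmbedding.comp g₂,
    strong_comp g₂ e.toEmbedding h₂ (strong_equiv e (K.mem_of_strong_right _ _ h₁)), fun x => ?_⟩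
  rw [← he (f x), h₃]
  rfl

theorem solve_all (hl : K.LSBound l) (hpo : HP K) {n : Cardinal.{u}} (hn : l ≤ n)
    (V : Type u) [L.Structure V] (hV : K.Mem V) (hc : #V ≤ 2 ^ n) :
    ∃ (V' : Type u) (_ : L.Structure V') (f : V ↪[L] V'), K.Strong V' f.toHom.range ∧
      #V' ≤ 2 ^ n ∧ Solves K n f := by
  have hT := card_problems (hl.1.trans hn) V hc
  have hnθ : n ≤ 2 ^ n := (Cardinal.cantor n).le
  generalize (2 : Cardinal.{u}) ^ n = θ at hc hT hnθ ⊢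
  have hθ : l ≤ θ := hn.trans hnθ
  have hi : ℵ₀ ≤ θ := hl.inf.trans hθ
  obtain ⟨Ω, hΩ⟩ : ∃ Ω : Type u, θ < #Ω :=
    ⟨(Order.succ θ).out, by rw [Cardinal.mk_out]; exact Order.lt_succ θ⟩
  obtain ⟨M₀, ⟨e⟩⟩ := PM.exists_copy (L := L) (Ω := Ω) V (hc.trans hΩ.le)
  have hj : ∀ {M : PM L Ω}, PM.Le K M₀ M → ∃ j : V ↪[L] M.s, K.Strong M.s j.toHom.range ∧
      ∀ x, (j x : Ω) = e x := fun ⟨ε, h1, h2⟩ =>
    ⟨ε.comp e.toEmbedding, strong_comp _ _ (strong_equiv e hV) h2, fun x => h1 _⟩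
  obtain ⟨b, hb, hb0, hd⟩ := rec_tasks (fun M : PM L Ω => K.Mem M.s ∧ #M.s ≤ θ) (PM.Le K)
    (fun (t : Σ (B : PM L n.out) (A : L.Substructure V), A ↪[L] B.s) M =>
      K.Strong V t.2.1 → K.Strong t.1.s t.2.2.toHom.range →
      ∃ g : t.1.s ↪[L] M.s, K.Strong M.s g.toHom.range ∧ ∀ x, (g (t.2.2 x) : Ω) = e x)
    M₀ hi hT ⟨K.mem_iso _ _ e hV, (Cardinal.mk_congr e.toEquiv).symm.trans_le hc⟩
    (fun a ha => PM.le_refl' ha.1) (fun _ _ _ => PM.Le.trans)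
    (fun t a b h ⟨ε, h1, h2⟩ s1 s2 => by
      obtain ⟨g, g1, g2⟩ := h s1 s2
      exact ⟨ε.comp g, strong_comp _ _ g1 h2, fun x => (h1 _).trans (g2 x)⟩)
    (fun t a ha h0 => by
      by_cases s : K.Strong V t.2.1 ∧ K.Strong t.1.s t.2.2.toHom.range
      · obtain ⟨j, j1, j2⟩ := hj h0
        obtain ⟨N, n1, n2, g, g1, g2⟩ := solve_step hl hpo hθ hΩ a ha.2 (j.comp t.2.1.subtype)
          t.2.2 (strong_comp _ _ ((strong_subtype _).2 s.1) j1) s.2
          ((Cardinal.mk_set_le _).trans ((Cardinal.mk_out n).trans_le hnθ))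
        exact ⟨N, ⟨n2.mem_right, n1⟩, n2, fun _ _ => ⟨g, g1, fun x => (g2 x).trans (j2 _)⟩⟩
      · exact ⟨a, ha, PM.le_refl' ha.1, fun s1 s2 => absurd ⟨s1, s2⟩ s⟩)
    (fun κ _ _ hκ F c1 c2 c3 => by
      obtain ⟨U, u1, u2⟩ := PM.exists_union F c3
      refine ⟨U, ⟨(u2 hκ.some).mem_right, ?_⟩, u2⟩
      rw [u1]
      exact (Cardinal.mk_iUnion_le _).trans
        ((mul_le_mul' c1 (ciSup_le' fun i => (c2 i).2)).trans (Cardinal.mul_eq_self hi).le))
  obtain ⟨j, j1, j2⟩ := hj hb0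
  refine ⟨b.s, inferInstance, j, j1, hb.2, fun A B _ a hA ha hB => ?_⟩
  obtain ⟨B', ⟨e'⟩⟩ := PM.exists_copy (L := L) (Ω := n.out) B (hB.trans (Cardinal.mk_out n).ge)
  have he' := strong_equiv e' (K.mem_of_strong_right _ _ ha)
  obtain ⟨g, g1, g2⟩ := hd ⟨B', A, e'.toEmbedding.comp a⟩ hA (strong_comp _ _ ha he')
  exact ⟨g.comp e'.toEmbedding, strong_comp _ _ he' g1,
    fun x => Subtype.ext ((g2 x).trans (j2 _).symm)⟩

end Vale.Agent.P307C
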