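import Vale.Agent.P307C.Tw1
import Vale.Agent.P307C.Monster

/-! The standard model. Start as in `Vale/Agent/P307P/Wide2.lean` (monster with `θ = k`, `A`, `c ∉ A`, `B₀`), then
`Mon.exists_tow` on `X = k.ord.ToType` (`nonempty_ord_toType`, `mk_ord_toType`), `G = ⨆ x, Q x`. With `φ x` from `cp`, the
elements `φ x c ∈ Q x` are not in `U x` (`.2` of the square), so `x ↦ φ x c` is injective, `#(Iio m) ≤ #(U m)` and `k ≤ #G`.
For `μ < k` take `m = Ordinal.enum / ToType.mk` of `μ.ord`, `#(Iio m) = μ`; `#(U m) ≤ μ` from `U_eq`/`U_min`, `card_iSup_le`. -/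

open Cardinal FirstOrder Set
open FirstOrder.Language.Structure

universe u

namespace Vale.Agent.P307C

open Vale.Agent.P307P

variable {L : FirstOrder.Language.{u, u}} {K : AEC L} [Amalg K] {l θ : Cardinal.{u}}
  {W W' W'' : Type u} [L.Structure W] [L.Structure W'] [L.Structure W'']

theorem tw2_idx {k μ : Cardinal.{u}} (h : μ < k) : ∃ m : k.ord.ToType, #(Iio m) = μ := by
  obtain ⟨m, hm⟩ := Ordinal.typein_surj (α := k.ord.ToType) (· < ·) (o := μ.ord)
    (by rw [Ordinal.type_toType]; exact ord_lt_ord.2 h)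
  have h1 := congrArg Ordinal.card hm
  rw [card_ord] at h1
  exact ⟨m, h1⟩

theorem Ctx.exists_std (h : Ctx K l) {k : Cardinal.{u}} (hk : l ≤ k) :
    ∃ (W : Type u) (_ : L.Structure W) (A B₀ G : L.Substructure W)
      (B U Q : k.ord.ToType → L.Substructure W), Std K l k A B₀ G B U Q ∧ #G = k ∧
      ∀ μ, l ≤ μ → μ < k → ∃ m, #(U m) = μ := by
  obtain ⟨W, _, hm⟩ := h.exists_mon hk
  have hl := h.ls.inf
  obtain ⟨w⟩ := hm.nonempty
  obtain ⟨A, hA, hwA, hAc⟩ := hm.hull le_rfl {w} ((mk_singleton w).trans_le (one_le_aleph0.trans hl))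
  have hne : (A : Set W).Nonempty := ⟨w, hwA rfl⟩
  obtain ⟨c, -, hc⟩ := exists_not_mem_of_card_lt (A := A) (B := ⊤)
    (((hAc.trans hm.le).trans_lt hm.big).trans_eq (mk_univ (α := W)).symm)
  obtain ⟨B₀, hB₀, hsub, hBc⟩ := hm.hull le_rfl (insert c A)
    (mk_insert_le.trans (add_le_of_le hl hAc (one_le_aleph0.trans hl)))
  have hAB₀ : A ≤ B₀ := fun x hx => hsub (mem_insert_of_mem _ hx)
  have hcB₀ : c ∈ B₀ := hsub (mem_insert _ _)
  have hX : #k.ord.ToType = k := mk_ord_toType k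
  have hN := nonempty_ord_toType hm.inf
  obtain ⟨B, U, Q, hT, hQ⟩ := hm.exists_tow (X := k.ord.ToType) hX.le hne (hA.coh hB₀ hAB₀) hA hBc
  have hmono : Monotone Q := fun x y hxy => hT.mono (mem_univ y) hxy
  choose φ hφ hφA using fun x => hT.cp x (mem_univ x) (mem_univ x)
  have hpo := fun x => hT.po x (mem_univ x) (mem_univ x)
  have hcB : ∀ x, φ x c ∈ B x := fun x => (hφ x).1.mapsTo hcB₀
  have hcQ : ∀ x, φ x c ∈ Q x := fun x => (hpo x).1.bp.le (hcB x)
  have hcA : ∀ x, φ x c ∉ A := fun x hx =>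
    hc ((hφ x).1.injOn (hAB₀ hx) hcB₀ (hφA x hx) ▸ hx)
  have hlt : ∀ x y, y < x → φ x c ≠ φ y c := fun x y hyx e => hcA x (by
    rw [← (hpo x).2]
    exact ⟨hcB x, hT.QU (mem_univ x) hyx (e ▸ hcQ y)⟩)
  have hinj : Function.Injective fun x => φ x c := fun x y e => by
    rcases lt_trichotomy x y with g | g | g
    · exact absurd e.symm (hlt _ _ g)
    · exact g
    · exact absurd e (hlt _ _ g)
  have hG : #(⨆ x, Q x : L.Substructure W) ≤ k := card_iSup_le Q hmono hm.inf hX.le fun x =>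
    (hQ x).trans (max_le ((mk_set_le _).trans hX.le) hk)
  refine ⟨W, _, A, B₀, ⨆ x, Q x, B, U, Q, ⟨hm, hT, hA.coh hB₀ hAB₀, hBc, fun d => ?_,
    str_chain_smooth Q hmono fun x => hT.top x (mem_univ x), hG, hX.le⟩,
    le_antisymm hG (hX.ge.trans ?_), fun μ h1 h2 => ?_⟩
  · rw [mem_iSup_mono Q hmono]
    refine ⟨Or.inr, fun hd => hd.elim (fun hd => ?_) id⟩
    obtain ⟨x⟩ := hN
    exact ⟨x, hT.UQ (mem_univ x) (hT.le_U (mem_univ x) hd)⟩
  · exact mk_le_of_injective (f := fun x => (⟨φ x c, le_iSup Q x (hcQ x)⟩ : (⨆ x, Q x :)))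
      fun x y e => hinj (congrArg Subtype.val e)
  · obtain ⟨m, hm'⟩ := tw2_idx h2
    refine ⟨m, le_antisymm ?_ (hm'.ge.trans ?_)⟩
    · cases isEmpty_or_nonempty (Iio m) with
      | inl _ => exact (hT.U_min (mem_univ m)).symm ▸ hAc.trans h1
      | inr _ =>
        rw [hT.U_eq (mem_univ m)]
        exact card_iSup_le (fun y : Iio m => Q y) (fun x y hxy => hmono hxy) (hl.trans h1) hm'.le
          fun y => (hQ y).trans (max_le ((mk_le_mk_of_subset (Iio_subset_Iio (le_of_lt y.2))).trans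
            hm'.le) h1)
    · exact mk_le_of_injective
        (f := fun x : Iio m => (⟨φ x c, hT.QU (mem_univ m) x.2 (hcQ x)⟩ : U m))
        fun x y e => Subtype.ext (hinj (congrArg Subtype.val e))

end Vale.Agent.P307C
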