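import Vale.Agent.P307C.Few
import Vale.Agent.P307C.Tw2

/-! Stability. -/

open Cardinal FirstOrder Set
open FirstOrder.Language.Structure

universe u

namespace Vale.Agent.P307C

open Vale.Agent.P307P

variable {L : FirstOrder.Language.{u, u}} {K : AEC L} [Amalg K] {l θ : Cardinal.{u}}
  {W W' W'' : Type u} [L.Structure W] [L.Structure W'] [L.Structure W'']

theorem Ctx.stable (h : Ctx K l) (hm : Mon K l θ W) {k k' : Cardinal.{u}} (hk : l ≤ k)
    (hkk : k < k') (hk' : K.Categorical k') (hθ : k' ≤ θ) {U : L.Substructure W}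
    (hU : Str K U ⊤) (hc : #U ≤ k) : ∃ t : Set W, #t ≤ k ∧ ∀ c, ∃ u ∈ t, Eqv K θ U u c := by
  let r : Setoid W := ⟨Eqv K θ U, hm.eqv_refl (hc.trans (hkk.le.trans hθ)), hm.eqv_symm,
    hm.eqv_trans⟩
  refine ⟨range (Quotient.out (s := r)), ?_, fun c => ⟨_, ⟨_, rfl⟩, Quotient.mk_out (s := r) c⟩⟩
  by_contra hlt
  obtain ⟨s, hs, hsc⟩ := le_mk_iff_exists_subset.1 (Order.succ_le_of_lt (not_le.1 hlt))
  have hk0 : ℵ₀ ≤ k := h.ls.inf.trans hk
  have hk1 : ℵ₀ ≤ k' := hk0.trans hkk.le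
  have hlk : l ≤ k' := hk.trans hkk.le
  have h1 : k' ≤ #(⊤ : L.Substructure W) := by
    rw [mk_congr (Language.Substructure.topEquiv (L := L) (M := W)).toEquiv]
    exact hθ.trans hm.big.le
  obtain ⟨U', hU', hsub, hcU⟩ := exists_str_card hm.ls hlk hm.top h1 (U ∪ s) (fun _ _ => trivial)
    ((mk_union_le _ _).trans (add_le_of_le hk1 (hc.trans hkk.le)
      (hsc.le.trans (Order.succ_le_of_lt hkk))))
  obtain ⟨W₁, _, A, B₀, G, B, U₁, Q, hS, hG, -⟩ := h.exists_std hlk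
  have : Nonempty W₁ := hS.mon.nonempty
  have : Nonempty W := hm.nonempty
  have := nonempty_ord_toType hk1
  obtain ⟨φ, hφ⟩ := exists_isoOn_of_cat hk' hU'.mem_left hS.top.mem_left hcU hG
  have hUU : (U : Set W) ⊆ U' := subset_union_left.trans hsub
  have hsU : s ⊆ U' := subset_union_right.trans hsub
  obtain ⟨_, ⟨c, hc1, rfl⟩, _, ⟨c', hc2, rfl⟩, hne, χ, R₁, R₂, i1, s1, s2, u1, e1, m1, e2⟩ :=
    hS.few hk (φ '' U) (φ '' s) (hφ.1.mapsTo.mono_left hUU).image_subset (mk_image_le.trans hc)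
      (hφ.1.mapsTo.mono_left hsU).image_subset (by
        rw [mk_image_eq_of_injOn _ _ (hφ.1.injOn.mono hsU), hsc]
        exact Order.lt_succ k)
  obtain ⟨ψ, p1, p2, p3⟩ := hφ.exists_symm
  obtain ⟨D₁, d1, j1⟩ := p1.restrict s1.le
  obtain ⟨D₂, d2, j2⟩ := p1.restrict s2.le
  have j3 : IsoOn φ D₁ R₁ := by
    obtain ⟨Y, -, hY⟩ := hφ.restrict d1
    rwa [← (isoOn_id R₁).unique ((hY.comp j1).congr fun x hx => p3 x (s1.le hx))] at hY
  have hin : ∀ x ∈ U', φ x ∈ R₁ → x ∈ D₁ := fun x hx hx' => p2 x hx ▸ j1.1.mapsTo hx'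
  have h5 : Eqv K θ U c c' := by
    refine ⟨_, D₁, D₂, (p1.str j1 s1).trans hU', (p1.str j2 s2).trans hU',
      (card_mono d1).trans (hcU.le.trans hθ), fun x hx => hin x (hUU hx) (u1 ⟨x, hx, rfl⟩),
      j2.comp (i1.comp j3), fun x hx => ?_, hin c (hsU hc1) m1, ?_⟩
    · have a1 : χ (φ x) = φ x := e1 ⟨x, hx, rfl⟩
      simp only [Function.comp, a1, p2 _ (hUU hx), id]
    · simp only [Function.comp, e2, p2 _ (hsU hc2)]
  obtain ⟨q, hq⟩ := hs hc1
  obtain ⟨q', hq'⟩ := hs hc2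
  rw [← hq, ← hq'] at h5
  refine hne ?_
  rw [← hq, ← hq', (Quotient.out_equiv_out (s := r) (x := q) (y := q')).1 h5]

end Vale.Agent.P307C
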