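import Vale.Agent.P307C.Vp2
import Vale.Agent.P307C.Min

/-! The successor step inside the monster. -/

open Cardinal FirstOrder Set
open FirstOrder.Language.Structure

universe u

namespace Vale.Agent.P307C

open Vale.Agent.P307P

variable {L : FirstOrder.Language.{u, u}} {K : AEC L} [Amalg K] {l θ : Cardinal.{u}}
  {W W' W'' : Type u} [L.Structure W] [L.Structure W'] [L.Structure W'']

theorem Ctx.cover_real (h : Ctx K l) (hm : Mon K l θ W) {ρ μ k : Cardinal.{u}} (hρ : l ≤ ρ)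
    (hρμ : ρ < μ) (hμ : K.Categorical μ) (hk : K.Categorical k) (hμk : μ < k) (hkθ : k ≤ θ)
    {A N D₀ D₀' : L.Substructure W} {c : W} (hA : IsMin K θ ρ A c) (hN : Str K N ⊤)
    (hμN : μ < #N) {φ₀ : W → W} (hφ : IsoOn φ₀ D₀ D₀') (hD : Str K D₀ N) (hD' : Str K D₀' ⊤)
    (hDc : #D₀ = μ) (hAD : A ≤ D₀) (hfix : EqOn id φ₀ A) (t : Set W) (ht : #t ≤ μ)
    (hr : ∀ b ∈ t, Eqv K θ A c b) :
    ∃ (ψ : W → W) (D₁ D₁' : L.Substructure W), IsoOn ψ D₁ D₁' ∧ Str K D₁ N ∧ Str K D₁' ⊤ ∧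
      #D₁ ≤ μ ∧ D₀ ≤ D₁ ∧ EqOn φ₀ ψ D₀ ∧ t ⊆ D₁' := by
  have hlμ : l ≤ μ := hρ.trans hρμ.le
  have hμθ : μ ≤ θ := hμk.le.trans hkθ
  have hinf : ℵ₀ ≤ μ := h.ls.inf.trans hlμ
  refine cover_rec hinf hφ hD hD' hDc.le t ht fun φ D D' h1 h2 h3 h4 h5 h6 b hb => ?_
  by_cases hbD : b ∈ D'
  · exact ⟨φ, D, D', h1, h2, h3, h4, le_rfl, fun _ _ => rfl, hbD⟩
  have hc : #D = μ := h4.antisymm (hDc ▸ card_mono h5)
  have h7 := h2.trans hN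
  have hAD' : A ≤ D := hAD.trans h5
  have h8 : ∀ a ∈ A, φ a = a := fun a ha => (h6 (hAD ha)).symm.trans (hfix ha).symm
  obtain ⟨κ, E, E', k1, k2, k3, k4, k5, k6, k7⟩ := hm.exists_inv_ext h1 h7 h3 (h4.trans hμθ) b
  have e1 : Eqv K θ A c (κ b) := hm.eqv_trans (hr b hb) ⟨κ, E, E', k2, k3, k4,
    fun a ha => k5 (h8 a ha ▸ h1.1.mapsTo (hAD' ha)), k1,
    fun a ha => (congrArg κ (h8 a ha)).symm.trans (k7 a (hAD' ha)), k6, rfl⟩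
  have e2 : κ b ∉ D := fun hx => hbD (by
    rw [k1.1.injOn k6 (k5 (h1.1.mapsTo hx)) (k7 _ hx).symm]
    exact h1.1.mapsTo hx)
  obtain ⟨x, x1, x2⟩ := exists_not_mem_of_card_lt (hc.trans_lt hμN)
  obtain ⟨F, f1, f2, f3⟩ := exists_str_ls h.ls hlμ hN.mem_left (D ∪ {x})
    (union_subset h2.le (singleton_subset_iff.2 x1))
    (card_union_le hinf h4 ((mk_singleton x).trans_le (one_le_aleph0.trans hinf)))
  have hne : (A : Set W).Nonempty := nonempty_coe_sort.1 (mk_ne_zero_iff.1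
    (hA.card.trans_ne ((aleph0_pos.trans_le (h.ls.inf.trans hρ)).ne')))
  obtain ⟨u, u1, u2, u3⟩ : ∃ u ∈ F, Eqv K θ A c u ∧ u ∉ D := by
    by_contra hu
    push Not at hu
    exact x2 (h.no_vp hm (subset_union_left.trans f2) h7 (f1.trans hN) (f3.trans hμθ) (hc ▸ hμ)
      hρ (hc ▸ hρμ) hk (hc ▸ hμk) hkθ hA.str hAD' hA.card.le hne hA.nmem hu (f2 (Or.inr rfl)))
  exact hm.cover_step hlμ hμθ hN h1 h2 h4 k1 k2 k3 k4 k5 k7 k6 (f1.le u1)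
    (h.min_unique hm hρ hA h7 hAD' (h4.trans hμθ) (hc ▸ hμ) u2 e1 u3 e2)

end Vale.Agent.P307C
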