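import Vale.Agent.P307C.Succ0

/-! The successor step inside the monster.
`cover_real`: `cover_rec`; for a state `(φ, D, D')` (`#D = μ` since `D₀ ≤ D`) and `b ∈ t`: if
`b ∈ D'` do nothing; else `exists_inv_ext` gives `k`; `k` fixes `A` and `k b ∉ D` realises the
type; take `D < D⁺ ≤_K N` of size `μ` (`exists_not_mem_of_card_lt`, hull); `no_vp` gives a
realisation `u ∈ D⁺ \ D`; `min_unique` gives `Eqv D u (k b)`; `cover_step`.
`succ_inner`: build `(φ i, D i, D' i, E i)` for `i : ℕ` with `E i ≤_K ⊤` of size `≤ μ`,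
`D' i ≤ E i`, all realisations in `E i` lie in `D' (i+1)`, `E (i+1)` a hull of `E i ∪ D' (i+1)`;
start with `id` on `D₀` and `E 0 = B`. In the limit (`isoOn_chain` with `ULift ℕ`) `no_vp` gives
`⨆ E ≤ ⨆ D'`. -/

open Cardinal FirstOrder Set
open FirstOrder.Language.Structure

universe u

namespace Vale.Agent.P307C

open Vale.Agent.P307P

variable {L : FirstOrder.Language.{u, u}} {K : AEC L} [Amalg K] {l θ : Cardinal.{u}}
  {W W' W'' : Type u} [L.Structure W] [L.Structure W'] [L.Structure W'']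

theorem succ1_chain (φ : ℕ → W → W') (A : ℕ → L.Substructure W) (A' : ℕ → L.Substructure W')
    (h : ∀ i, IsoOn (φ i) (A i) (A' i)) (hA : Monotone A)
    (he : ∀ i, EqOn (φ i) (φ (i + 1)) (A i)) :
    ∃ ψ : W → W', IsoOn ψ (⨆ i, A i) (⨆ i, A' i) ∧ ∀ i, EqOn (φ i) ψ (A i) := by
  have he' : ∀ i j, i ≤ j → EqOn (φ i) (φ j) (A i) := fun i j hij => by
    induction j, hij using Nat.le_induction with
    | base => exact fun _ _ => rfl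
    | succ j hij ih => exact ih.trans ((he j).mono (hA hij))
  obtain ⟨ψ, h1, h2⟩ := isoOn_chain (ι := ULift.{u} ℕ) (fun i => φ i.down) (fun i => A i.down)
    (fun i => A' i.down) (fun i => h i.down) (fun _ _ hij => hA hij) fun _ _ hij => he' _ _ hij
  rw [ULift.down_surjective.iSup_comp A, ULift.down_surjective.iSup_comp A'] at h1
  exact ⟨ψ, h1, fun i => h2 ⟨i⟩⟩

/-- The states of the construction. -/
def succ1_G (K : AEC L) (μ : Cardinal.{u}) (N D₀ B : L.Substructure W)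
    (s : (W → W) × L.Substructure W × L.Substructure W × L.Substructure W) : Prop :=
  IsoOn s.1 s.2.1 s.2.2.1 ∧ Str K s.2.1 N ∧ Str K s.2.2.1 ⊤ ∧ #s.2.1 ≤ μ ∧ D₀ ≤ s.2.1 ∧
    EqOn id s.1 D₀ ∧ Str K s.2.2.2 ⊤ ∧ #s.2.2.2 ≤ μ ∧ s.2.2.1 ≤ s.2.2.2 ∧ B ≤ s.2.2.2

theorem Ctx.succ_inner (h : Ctx K l) (hm : Mon K l θ W) {ρ μ k : Cardinal.{u}} (hρ : l ≤ ρ)
    (hρμ : ρ < μ) (hμ : K.Categorical μ) (hk : K.Categorical k) (hμk : μ < k) (hkθ : k ≤ θ)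
    {A N D₀ B : L.Substructure W} {c : W} (hA : IsMin K θ ρ A c) (hN : Str K N ⊤)
    (hμN : μ < #N) (hD : Str K D₀ N) (hDc : #D₀ = μ) (hAD : A ≤ D₀) (hB : Str K B ⊤)
    (hDB : D₀ ≤ B) (hBc : #B ≤ μ) :
    ∃ (ψ : W → W) (D₁ D₁' : L.Substructure W), IsoOn ψ D₁ D₁' ∧ Str K D₁ N ∧ Str K D₁' ⊤ ∧
      D₀ ≤ D₁ ∧ EqOn id ψ D₀ ∧ B ≤ D₁' := by
  have hlμ : l ≤ μ := hρ.trans hρμ.le
  have hinf : ℵ₀ ≤ μ := h.ls.inf.trans hlμ
  have step : ∀ s : {s // succ1_G K μ N D₀ B s}, ∃ s' : {s // succ1_G K μ N D₀ B s},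
      s.1.2.1 ≤ s'.1.2.1 ∧ EqOn s.1.1 s'.1.1 s.1.2.1 ∧ s.1.2.2.2 ≤ s'.1.2.2.2 ∧
        ∀ b ∈ s.1.2.2.2, Eqv K θ A c b → b ∈ s'.1.2.2.1 := by
    rintro ⟨⟨φ, D, D', E⟩, h1, h2, h3, h4, h5, h6, h7, h8, h9, h10⟩
    obtain ⟨ψ, D₁, D₁', g1, g2, g3, g4, g5, g6, g7⟩ := h.cover_real hm hρ hρμ hμ hk hμk hkθ hA hN
      hμN h1 h2 h3 (le_antisymm h4 (hDc.ge.trans (card_mono h5))) (hAD.trans h5) (h6.mono hAD)
      {b | b ∈ E ∧ Eqv K θ A c b} ((card_le_of_subset fun _ hb => hb.1).trans h8) fun _ hb => hb.2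
    obtain ⟨E₁, e1, e2, e3⟩ := hm.hull hlμ ((E : Set W) ∪ D₁')
      (card_union_le hinf h8 (g1.card_eq.trans_le g4))
    exact ⟨⟨(ψ, D₁, D₁', E₁), g1, g2, g3, g4, h5.trans g5, h6.trans (g6.mono h5), e1, e3,
      fun _ hx => e2 (.inr hx), fun _ hx => e2 (.inl (h10 hx))⟩, g5, g6,
      fun _ hx => e2 (.inl hx), fun b hb he => g7 ⟨hb, he⟩⟩
  choose f f1 f2 f3 f4 using step
  obtain ⟨s, hs⟩ : ∃ s : ℕ → {s // succ1_G K μ N D₀ B s}, ∀ i, s (i + 1) = f (s i) :=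
    ⟨fun i => f^[i] ⟨(id, D₀, D₀, B), isoOn_id D₀, hD, hD.trans hN, hDc.le, le_rfl,
      fun _ _ => rfl, hB, hBc, hDB, le_rfl⟩, fun i => Function.iterate_succ_apply' _ _ _⟩
  have m1 : Monotone fun i => (s i).1.2.1 := monotone_nat_of_le_succ fun i => by rw [hs]; exact f1 (s i)
  have m2 : ∀ i, EqOn (s i).1.1 (s (i + 1)).1.1 (s i).1.2.1 := fun i => by rw [hs]; exact f2 (s i)
  have m3 : Monotone fun i => (s i).1.2.2.2 := monotone_nat_of_le_succ fun i => by rw [hs]; exact f3 (s i)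
  have m4 : Monotone fun i => (s i).1.2.2.1 := monotone_nat_of_le_succ fun i =>
    ((s i).2.1.congr (m2 i)).le (s (i + 1)).2.1 (m1 i.le_succ)
  obtain ⟨ψ, g1, g2⟩ := succ1_chain _ _ _ (fun i => (s i).2.1) m1 m2
  have d0 : D₀ ≤ ⨆ i, (s i).1.2.1 := le_iSup_of_le 0 (s 0).2.2.2.2.2.1
  have e0 : EqOn id ψ D₀ := (s 0).2.2.2.2.2.2.1.trans ((g2 0).mono (s 0).2.2.2.2.2.1)
  have hc : #(⨆ i, (s i).1.2.2.1 : L.Substructure W) = μ := g1.card_eq.trans (le_antisymm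
    (card_iSup_nat_le _ m1 hinf fun i => (s i).2.2.2.2.1) (hDc.ge.trans (card_mono d0)))
  have s' := str_nat_smooth _ m4 fun i => (s i).2.2.2.1
  refine ⟨ψ, _, _, g1, str_nat_smooth _ m1 fun i => (s i).2.2.1, s', d0, e0,
    (le_iSup_of_le 0 (s 0).2.2.2.2.2.2.2.2.2.2 : B ≤ ⨆ i, (s i).1.2.2.2).trans
    (h.no_vp hm (c := c) (iSup_mono fun i => (s i).2.2.2.2.2.2.2.2.2.1) s'
      (str_nat_smooth _ m3 fun i => (s i).2.2.2.2.2.2.2.1)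
      ((card_iSup_nat_le _ m3 hinf fun i => (s i).2.2.2.2.2.2.2.2.1).trans (hμk.le.trans hkθ))
      (by rwa [hc]) hρ (hρμ.trans_eq hc.symm) hk (hc.trans_lt hμk) hkθ hA.str (fun x hx => ?_) hA.card.le ?_ hA.nmem
      fun x hx he => ?_)⟩
  · have h1 := g1.1.mapsTo (d0 (hAD hx))
    rwa [← e0 (hAD hx)] at h1
  · have h1 : #A ≠ 0 := ((aleph0_pos.trans_le (h.ls.inf.trans hρ)).trans_eq hA.card.symm).ne'
    obtain ⟨x⟩ := Cardinal.mk_ne_zero_iff.1 h1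
    exact ⟨x, x.2⟩
  · obtain ⟨i, hi⟩ := (mem_iSup_nat _ m3 x).1 hx
    exact (mem_iSup_nat _ m4 x).2 ⟨i + 1, by rw [hs]; exact f4 (s i) x hi he⟩

end Vale.Agent.P307C
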