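import Vale.Agent.P307C.Succ1

/-! Every model larger than a categoricity cardinal `μ` has the extension property for `μ`.
Take `k > μ` with `Categorical k`, `θ = max k #N`, a monster `W'`, a minimal type `(A, c)`.
A strong submodel of `N` of size `ρ` is isomorphic to `A`; extend by the monster to `N ≃ N'`,
`A ≤ N'`. `univIn_of_inner` for `N'`: given `A₁ ≤_K N'`, `A₁ ≤ B₁`, enlarge to `D₀ ≤_K N'` of size
`μ` containing `A ∪ A₁` and `B ⊇ B₁ ∪ D₀`; `succ_inner`, `inner_of_cover`. Come back with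
`UnivIn.iso` and the inverse map. -/

open Cardinal FirstOrder Set
open FirstOrder.Language.Structure

universe u

namespace Vale.Agent.P307C

open Vale.Agent.P307P

variable {L : FirstOrder.Language.{u, u}} {K : AEC L} [Amalg K] {l θ : Cardinal.{u}}
  {W W' W'' : Type u} [L.Structure W] [L.Structure W'] [L.Structure W'']

theorem Ctx.univ_succ (h : Ctx K l) {ρ μ : Cardinal.{u}} (hρ : l < ρ) (hρc : K.Categorical ρ)
    (hρμ : ρ < μ) (hμ : K.Categorical μ) {N : L.Substructure W} (hN : K.Mem N)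
    (hμN : μ < #N) : UnivIn K N μ := by
  obtain ⟨k, hk1, hk⟩ := h.unb (Order.succ μ)
  have hμk : μ < k := lt_of_lt_of_le (Order.lt_succ μ) hk1
  have hlμ : l ≤ μ := (hρ.trans hρμ).le
  have hμθ : μ ≤ max k #N := hμk.le.trans (le_max_left _ _)
  have hinf : ℵ₀ ≤ μ := h.ls.inf.trans hlμ
  obtain ⟨V, _, hm⟩ := h.exists_mon (θ := max k #N) (hlμ.trans hμθ)
  obtain ⟨A, c, hA⟩ := h.exists_min hm hρ (hρμ.le.trans hμθ) hρc
  obtain ⟨A₀, hA₀N, -, hA₀c⟩ := exists_str_card h.ls hρ.le hN (hρμ.trans hμN).le ∅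
    (empty_subset _) (by simp)
  have : Nonempty V := hm.nonempty
  have : Nonempty W := by
    obtain ⟨x⟩ : Nonempty N := Cardinal.mk_ne_zero_iff.1 (ne_of_gt (lt_of_le_of_lt zero_le hμN))
    exact ⟨x⟩
  obtain ⟨φ, hφ⟩ := exists_isoOn_of_cat hρc hA₀N.mem_left hA.str.mem_left hA₀c hA.card
  obtain ⟨ψ, N', hψ, hN', he⟩ := hm.univ W A₀ N A φ hA₀N (le_max_right _ _) hA.str hφ
  have hAN' : A ≤ N' := (hφ.congr he).le hψ hA₀N.le
  have hμN' : μ < #N' := by rw [hψ.card_eq]; exact hμN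
  have hU : UnivIn K N' μ := by
    refine hm.univIn_of_inner hμθ hN' fun A₁ B₁ hA₁ hB₁ hAB hBc => ?_
    have hA₁c : #A₁ ≤ μ := (Cardinal.mk_le_mk_of_subset (show (A₁ : Set V) ⊆ B₁ from hAB)).trans hBc
    have hAc : #A ≤ μ := hA.card.le.trans hρμ.le
    obtain ⟨D₀, hD₀, hsub, hDc⟩ := exists_str_card h.ls hlμ hN'.mem_left hμN'.le
      ((A : Set V) ∪ A₁) (union_subset hAN' hA₁.le)
      ((Cardinal.mk_union_le _ _).trans (Cardinal.add_le_of_le hinf hAc hA₁c))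
    obtain ⟨B, hB, hBsub, hBc'⟩ := hm.hull hlμ ((B₁ : Set V) ∪ D₀)
      ((Cardinal.mk_union_le _ _).trans (Cardinal.add_le_of_le hinf hBc hDc.le))
    have hAD : A ≤ D₀ := fun x hx => hsub (Or.inl hx)
    have hA₁D : A₁ ≤ D₀ := fun x hx => hsub (Or.inr hx)
    have hDB : D₀ ≤ B := fun x hx => hBsub (Or.inr hx)
    have hB₁B : B₁ ≤ B := fun x hx => hBsub (Or.inl hx)
    obtain ⟨ψ₁, D₁, D₁', h1, h2, h3, h4, h5, h6⟩ := h.succ_inner hm hρ.le hρμ hμ hk hμk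
      (le_max_left _ _) hA hN' hμN' hD₀ hDc hAD hB hDB hBc'
    exact inner_of_cover h1 h2 h3 hB₁ (hA₁D.trans h4) (fun x hx => h5 (hA₁D hx)) (hB₁B.trans h6)
  obtain ⟨χ, hχ, -, -⟩ := hψ.exists_symm
  exact hU.iso hχ

end Vale.Agent.P307C
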