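import Vale.Agent.P307C.RecC

/-! Basic facts on towers. `strU`: `U x = G₀` if `Iio x` is empty, otherwise `U x = ⨆ y : Iio x, Q y`
(`mem_iSup_mono`, `str_chain_smooth`). -/

open Cardinal FirstOrder Set
open FirstOrder.Language.Structure

universe u

namespace Vale.Agent.P307C

open Vale.Agent.P307P

variable {L : FirstOrder.Language.{u, u}} {K : AEC L} [Amalg K] {l θ : Cardinal.{u}}
  {W W' W'' : Type u} [L.Structure W] [L.Structure W'] [L.Structure W'']
  {X : Type u} [LinearOrder X] [WellFoundedLT X] {A B₀ G₀ G E : L.Substructure W} {D S T : Set X}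
  {B U Q : X → L.Substructure W}

theorem Tow.le_U (h : Tow K A B₀ G₀ D S B U Q) {x : X} (hx : x ∈ D) : G₀ ≤ U x := by
  exact fun c hc => (h.mem x hx c).2 (Or.inl hc)

theorem Tow.UQ (h : Tow K A B₀ G₀ D S B U Q) {x : X} (hx : x ∈ D) : U x ≤ Q x := by
  by_cases hS : x ∈ S
  · exact (h.po x hx hS).1.mp.le
  · exact (h.idle x hx hS).ge

theorem Tow.QU (h : Tow K A B₀ G₀ D S B U Q) {x y : X} (hx : x ∈ D) (hy : y < x) : Q y ≤ U x := by
  exact fun c hc => (h.mem x hx c).2 (Or.inr ⟨y, hy, hc⟩)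

theorem Tow.mono (h : Tow K A B₀ G₀ D S B U Q) {x y : X} (hx : x ∈ D) (hy : y ≤ x) :
    Q y ≤ Q x := by
  rcases hy.eq_or_lt with rfl | hy
  · exact le_rfl
  · exact (h.QU hx hy).trans (h.UQ hx)

theorem Tow.U_eq (h : Tow K A B₀ G₀ D S B U Q) {x : X} (hx : x ∈ D) [Nonempty (Iio x)] :
    U x = ⨆ y : Iio x, Q y := by
  refine le_antisymm (fun c hc => ?_) (iSup_le fun y => h.QU hx y.2)
  rcases (h.mem x hx c).1 hc with h1 | ⟨y, hy, h1⟩
  · obtain ⟨y⟩ := ‹Nonempty (Iio x)›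
    have hy : y.1 ∈ D := h.low (le_of_lt y.2) hx
    exact le_iSup (fun y : Iio x => Q y) y (h.UQ hy (h.le_U hy h1))
  · exact le_iSup (fun y : Iio x => Q y) ⟨y, hy⟩ h1

theorem Tow.U_min (h : Tow K A B₀ G₀ D S B U Q) {x : X} (hx : x ∈ D) [IsEmpty (Iio x)] :
    U x = G₀ := by
  refine le_antisymm (fun c hc => ?_) (h.le_U hx)
  rcases (h.mem x hx c).1 hc with h1 | ⟨y, hy, -⟩
  · exact h1
  · exact isEmptyElim (⟨y, hy⟩ : Iio x)

theorem Tow.strU (h : Tow K A B₀ G₀ D S B U Q) {x : X} (hx : x ∈ D) : Str K (U x) ⊤ := by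
  rcases isEmpty_or_nonempty (Iio x) with h0 | h0
  · rw [h.U_min hx]
    exact h.top₀
  · rw [h.U_eq hx]
    exact str_chain_smooth (fun y : Iio x => Q y)
      (fun y z hyz => h.mono (h.low (le_of_lt z.2) hx) hyz)
      fun y => h.top y (h.low (le_of_lt y.2) hx)

theorem Std.strQ (h : Std K l θ A B₀ G B U Q) (x : X) : Str K (Q x) G := by
  exact (h.tow.top x (mem_univ x)).coh h.top fun c hc => (h.mem c).2 (Or.inr ⟨x, hc⟩)

theorem Std.strU (h : Std K l θ A B₀ G B U Q) (x : X) : Str K (U x) G := by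
  exact (h.tow.strU (mem_univ x)).coh h.top ((h.tow.UQ (mem_univ x)).trans (h.strQ x).le)

theorem Std.G_eq [Nonempty X] (h : Std K l θ A B₀ G B U Q) : G = ⨆ x, Q x := by
  refine le_antisymm (fun c hc => ?_) (iSup_le fun x => (h.strQ x).le)
  rcases (h.mem c).1 hc with h1 | ⟨y, h1⟩
  · obtain ⟨y⟩ := ‹Nonempty X›
    exact le_iSup Q y (h.tow.UQ (mem_univ y) (h.tow.le_U (mem_univ y) h1))
  · exact le_iSup Q y h1

end Vale.Agent.P307C
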