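import Vale.Agent.P307C.Tw0
import Vale.Agent.P307C.Mon1

/-! Existence of towers. `rec_chain` on triples `(B x, U x, Q x)`; `U x` is `A` or `⨆ y : Iio x, Q y`
(strong in `⊤` by `str_chain_smooth`, size by `card_iSup_le`), step `Mon.po_exists`, size of `Q x` by `PrePO.card_le`. -/

open Cardinal FirstOrder Set
open FirstOrder.Language.Structure

universe u

namespace Vale.Agent.P307C

open Vale.Agent.P307P

variable {L : FirstOrder.Language.{u, u}} {K : AEC L} [Amalg K] {l θ : Cardinal.{u}}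
  {W W' W'' : Type u} [L.Structure W] [L.Structure W'] [L.Structure W'']
  {X : Type u} [LinearOrder X] [WellFoundedLT X] {A B₀ G₀ G E : L.Substructure W} {D S T : Set X}
  {B U Q : X → L.Substructure W}

omit [Amalg K] in
theorem tw1_stage {ι : Type u} [LinearOrder ι] [WellFoundedLT ι] {q : ι → L.Substructure W}
    (hq : Monotone q) (hA : Str K A ⊤) (h1 : ∀ j, Str K (q j) ⊤) (h2 : ∀ j, A ≤ q j)
    {n : Cardinal.{u}} (hn : ℵ₀ ≤ n) (hι : #ι ≤ n) (hc : #A ≤ n) (h3 : ∀ j, #(q j) ≤ n) :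
    ∃ V : L.Substructure W, Str K V ⊤ ∧ #V ≤ n ∧ ∀ c, c ∈ V ↔ c ∈ A ∨ ∃ j, c ∈ q j := by
  rcases isEmpty_or_nonempty ι with e | e
  · exact ⟨A, hA, hc, fun c => ⟨Or.inl, fun k => k.elim id fun ⟨j, _⟩ => e.elim j⟩⟩
  · refine ⟨⨆ j, q j, str_chain_smooth q hq h1, card_iSup_le q hq hn hι h3, fun c => ?_⟩
    rw [mem_iSup_mono q hq]
    exact ⟨Or.inr, fun k => k.elim (fun a => e.elim fun j => ⟨j, h2 j a⟩) id⟩

theorem Mon.exists_tow (h : Mon K l θ W) (hX : #X ≤ θ) (hne : (A : Set W).Nonempty)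
    (hAB : Str K A B₀) (hA : Str K A ⊤) (hc : #B₀ ≤ l) :
    ∃ B U Q : X → L.Substructure W, Tow K A B₀ A Set.univ Set.univ B U Q ∧
      ∀ x, #(Q x) ≤ max #(Iio x) l := by
  obtain ⟨F, h1, -, h3⟩ := rec_chain
    (α := L.Substructure W × L.Substructure W × L.Substructure W) (ι := X)
    (fun x a => (∃ φ : W → W, IsoOn φ B₀ a.1 ∧ EqOn φ id A) ∧ IsPO K A a.1 a.2.1 a.2.2 ∧
      Str K a.2.2 ⊤ ∧ #a.2.2 ≤ max #(Iio x) l)
    (fun _ _ a b => a.2.2 ≤ b.2.2)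
    (fun i r a => ∀ c, c ∈ a.2.1 ↔ c ∈ A ∨ ∃ y : Iio i, c ∈ (r y).2.2) (fun i r g m => by
      have hl : l ≤ max #(Iio i) l := le_max_right _ _
      have hθ : max #(Iio i) l ≤ θ := max_le ((mk_set_le _).trans hX) h.le
      obtain ⟨V, v1, v2, v3⟩ := tw1_stage (q := fun j : Iio i => (r j).2.2)
        (monotone_iff_forall_lt.2 fun j k hjk => m j k hjk) hA (fun j => (g j).2.2.1)
        (fun j => (g j).2.1.1.am.le.trans (g j).2.1.1.mp.le) (h.ls.inf.trans hl)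
        (le_max_left _ _) ((card_mono hAB.le).trans (hc.trans hl))
        fun j => (g j).2.2.2.trans (max_le_max_right _
          (mk_le_mk_of_subset (Iio_subset_Iio (le_of_lt j.2))))
      obtain ⟨φ, B', P, p1, p2, p3, p4, -⟩ := h.po_exists hne hAB
        (hA.coh v1 fun c hc' => (v3 c).2 (Or.inl hc')) v1 (hc.trans h.le) (v2.trans hθ)
      exact ⟨(B', V, P), ⟨⟨φ, p1, p2⟩, p3, p4,
        p3.1.card_le h.ls hl (p1.card_eq.trans_le (hc.trans hl)) v2⟩,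
        fun j c hc' => p3.1.mp.le ((v3 c).2 (Or.inr ⟨j, hc'⟩)), v3⟩)
  refine ⟨fun x => (F x).1, fun x => (F x).2.1, fun x => (F x).2.2,
    ⟨isLowerSet_univ, hne, str_refl hA.mem_left, hA, fun x _ _ => (h1 x).1,
      fun x _ _ => (h1 x).2.1, fun x _ hx => (hx (mem_univ x)).elim, fun x _ => (h1 x).2.2.1,
      fun x _ c => (h3 x c).trans (or_congr_right ?_)⟩, fun x => (h1 x).2.2.2⟩
  exact ⟨fun ⟨y, hy⟩ => ⟨y, y.2, hy⟩, fun ⟨y, hy, k⟩ => ⟨⟨y, hy⟩, k⟩⟩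

end Vale.Agent.P307C
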