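import Vale.Agent.P307C.Vp2a

/-! No Vaughtian pairs. -/

open Cardinal FirstOrder Set
open FirstOrder.Language.Structure

universe u

namespace Vale.Agent.P307C

open Vale.Agent.P307P

variable {L : FirstOrder.Language.{u, u}} {K : AEC L} [Amalg K] {l θ : Cardinal.{u}}
  {W W' W'' : Type u} [L.Structure W] [L.Structure W'] [L.Structure W'']

/-- Zorn (`zorn_le_nonempty₀`, chains by `dir_smooth`, `mem_sSup_dir`) on
`{V | Str K V ⊤ ∧ M ≤ V ∧ ∀ x ∈ V, Eqv A₀ c x → x ∈ M}`. If the maximal `V` has `#V ≤ θ`: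
`po_exists` for `(N, V)` over `M`, `symm`, `vp_step` (the copy `N'` has the same property: pull
back by the inverse map), and the copy of `d ∈ N \ M` is not in `V`. Otherwise take `V' ≤_K V` of
size `k` above `M`; `Ctx.univ` gives `UnivIn V' #M`; `exists_free` gives `c' ∉ M`; embed a hull
of `M ∪ {c'}` of size `#M` over `M` into `V'`: a new realisation in `V`. -/
theorem Ctx.no_vp (h : Ctx K l) (hm : Mon K l θ W) {M N A₀ : L.Substructure W} {c : W}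
    (hMN : M ≤ N) (hMs : Str K M ⊤) (hN : Str K N ⊤) (hNθ : #N ≤ θ) (hM : K.Categorical #M)
    {ρ k : Cardinal.{u}} (hρ : l ≤ ρ) (hρM : ρ < #M) (hk : K.Categorical k) (hMk : #M < k)
    (hkθ : k ≤ θ) (hA : Str K A₀ ⊤) (hAM : A₀ ≤ M) (hAc : #A₀ ≤ ρ)
    (hne : (A₀ : Set W).Nonempty) (hc : c ∉ A₀)
    (hp : ∀ x ∈ N, Eqv K θ A₀ c x → x ∈ M) : N ≤ M := by
  obtain ⟨V, -, hmax⟩ := zorn_le_nonempty₀
    {V : L.Substructure W | Str K V ⊤ ∧ M ≤ V ∧ ∀ x ∈ V, Eqv K θ A₀ c x → x ∈ M}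
    (fun 𝒟 h𝒟 hch y hy => ⟨sSup 𝒟, ⟨dir_smooth ⟨y, hy⟩ hch.directedOn fun A hA => (h𝒟 hA).1,
      (h𝒟 hy).2.1.trans (le_sSup hy), fun x hx e => by
        obtain ⟨A, hA, hxA⟩ := (mem_sSup_dir ⟨y, hy⟩ hch.directedOn x).1 hx
        exact (h𝒟 hA).2.2 x hxA e⟩, fun z hz => le_sSup hz⟩) M ⟨hMs, le_rfl, fun x hx _ => hx⟩
  obtain ⟨hV, hMV, hVp⟩ := hmax.prop
  have hlM : l ≤ #M := hρ.trans hρM.le
  have hMθ : #M ≤ θ := hMk.le.trans hkθ
  rcases le_or_gt #V θ with hVθ | hVθ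
  · intro d hd
    have hinf : ℵ₀ ≤ ρ := h.ls.inf.trans hρ
    obtain ⟨A, B, T, t1, t2, t3, t4, t5⟩ := h.lc (hMs.coh hN hMN) hM hlM hρ ({d} ∪ A₀)
      (union_subset (singleton_subset_iff.2 hd) fun y hy => hMN (hAM hy))
      (card_union_le hinf ((mk_singleton d).trans_le (one_le_aleph0.trans hinf)) hAc)
    have hA0 : A₀ ≤ A := by
      rw [← t1.2]
      exact le_inf (fun y hy => t3 (Or.inr hy)) hAM
    have hT := t2.trans hN
    have hTθ : #T ≤ θ := (card_mono t2.le).trans hNθ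
    obtain ⟨φ, N', P, hφ, hid, hP, hP', -⟩ := hm.po_exists (hne.mono hAM) t1.1.mp
      (hMs.coh hV hMV) hV hTθ hVθ
    have h1 : ∀ x ∈ N', Eqv K θ A₀ c x → x ∈ M := by
      intro x hx e
      obtain ⟨y, hy, rfl⟩ := hφ.1.surjOn hx
      have e1 : Eqv K θ A₀ y (φ y) :=
        ⟨φ, T, N', hT, hP.1.bp.trans hP', hTθ, hAM.trans t1.1.mp.le, hφ, hid.mono hAM, hy, rfl⟩
      have h2 := hp y (t2.le hy) (hm.eqv_trans e (hm.eqv_symm e1))
      rw [hid h2]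
      exact h2
    obtain ⟨B', -, hB'⟩ := hφ.restrict t1.1.bp.le
    have t6 : IsPO K A B' M N' := t1.iso ((isoOn_id A).congr (hid.mono t1.1.am.le).symm) hB'
      ((isoOn_id M).congr hid.symm) hφ
    have h2 := h.vp_step hm hP.symm hP' hMθ hM hρ hρM t6 hA0 (hB'.card_eq.trans_le t4) t5 h1
    have h3 : P ≤ V := hmax.le_of_ge ⟨hP', hMV.trans hP.1.mp.le, fun x hx e => hVp x (h2 x hx e) e⟩
      hP.1.mp.le
    have hdT : d ∈ T := t1.1.bp.le (t3 (Or.inl rfl))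
    have h4 : φ d ∈ N' := hφ.1.mapsTo hdT
    have h5 : φ d ∈ M := by
      rw [← hP.2]
      exact ⟨h4, h3 (hP.1.bp.le h4)⟩
    rw [← hφ.1.injOn (t1.1.mp.le h5) hdT (hid h5)]
    exact h5
  · exfalso
    obtain ⟨V', hV', hMV', hc'⟩ := exists_str_card h.ls (hlM.trans hMk.le) hV.mem_left
      (hkθ.trans hVθ.le) M hMV hMk.le
    have hu := h.univ hlM hMk hk hV'.mem_left hc'
    obtain ⟨c', e, f⟩ := hm.exists_free hne (hA.coh hMs hAM) hMs hMθ c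
    have h1 : c' ∉ M := f.not_mem (e.not_mem hc)
    have hinf : ℵ₀ ≤ #M := h.ls.inf.trans hlM
    obtain ⟨B, hB, hs, hBc⟩ := hm.hull hlM ((M : Set W) ∪ {c'}) (card_union_le hinf le_rfl (by
      rw [mk_singleton]
      exact one_le_aleph0.trans hinf))
    have hMB : M ≤ B := fun x hx => hs (Or.inl hx)
    have hcB : c' ∈ B := hs (Or.inr rfl)
    have hV'' := hV'.trans hV
    obtain ⟨ψ, B', hψ, hB', hid⟩ := hu W M B M id (hMs.coh hB hMB) hBc (hMs.coh hV'' hMV') (isoOn_id M)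
    have e1 : Eqv K θ A₀ c' (ψ c') :=
      ⟨ψ, B, B', hB, hB'.trans hV'', hBc.trans hMθ, hAM.trans hMB, hψ, hid.symm.mono hAM, hcB, rfl⟩
    have h2 : ψ c' ∈ M := hVp _ (hV'.le (hB'.le (hψ.1.mapsTo hcB))) (hm.eqv_trans e e1)
    refine h1 ?_
    rw [← hψ.1.injOn (hMB h2) hcB (hid h2).symm]
    exact h2

end Vale.Agent.P307C
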