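import Vale.Agent.P307C.Lc
import Vale.Agent.P307C.Small
import Vale.Agent.P307C.Fre

/-! No Vaughtian pairs. -/

open Cardinal FirstOrder Set
open FirstOrder.Language.Structure

universe u

namespace Vale.Agent.P307C

open Vale.Agent.P307P

variable {L : FirstOrder.Language.{u, u}} {K : AEC L} [Amalg K] {l θ : Cardinal.{u}}
  {W W' W'' : Type u} [L.Structure W] [L.Structure W'] [L.Structure W'']

/-- `reflect`; `Ctx.univ` for `M` embeds `V'` over `A` onto `V'' ≤_K M`; split `IsPO A B M T` at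
`V''`; `PrePO.unique` (with `id` on `B`) gives `χ : P' ≃ P''`; `χ x ∈ N` realises the type
(`eqv_trans`), so `χ x ∈ P'' ⊓ M = V''`, so `x ∈ V'` by injectivity on `P'`. -/
theorem Ctx.vp_step (h : Ctx K l) (hm : Mon K l θ W) {M V N P A₀ A B : L.Substructure W} {c : W}
    (hP : IsPO K M V N P) (hP' : Str K P ⊤) (hθ : #M ≤ θ) (hM : K.Categorical #M)
    {ρ : Cardinal.{u}} (hρ : l ≤ ρ) (hρM : ρ < #M) (h1 : IsPO K A B M N) (hA' : A₀ ≤ A)
    (hB : #B ≤ ρ) (hne : (A : Set W).Nonempty)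
    (hN : ∀ x ∈ N, Eqv K θ A₀ c x → x ∈ M) : ∀ x ∈ P, Eqv K θ A₀ c x → x ∈ V := by
  intro x hx e
  have := hm.nonempty
  obtain ⟨V', P', hPc, hx0, h2, h5⟩ := (h1.paste hP.symm).small h.ls hρ hne hB {x}
    (singleton_subset_iff.2 hx) ((mk_singleton x).trans_le (one_le_aleph0.trans (h.ls.inf.trans hρ)))
  have hx' : x ∈ P' := hx0 rfl
  have hV' := h5.1.am
  have hP2 := h5.1.bp
  have hVc : #V' ≤ ρ := (card_mono h2.1.mp.le).trans hPc
  obtain ⟨ψ, V'', i1, s1, e1⟩ := h.univ hρ hρM hM hP.1.ab.mem_left rfl W A V' A id h2.1.am hVc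
    h1.1.am (isoOn_id A)
  have s2 : Str K A V'' := i1.str ((isoOn_id A).congr e1) h2.1.am
  obtain ⟨P'', h3, h4⟩ := h1.split h.po hne s2 s1
  obtain ⟨χ, i2, e2, e3⟩ := h2.1.unique h3.1 (isoOn_id A) (isoOn_id B) i1 e1
  have m1 : χ x ∈ P'' := i2.1.mapsTo hx'
  have s3 : Str K P'' N := h4.1.bp
  have q : Eqv K θ A₀ x (χ x) :=
    ⟨χ, P', P'', hP2.trans hP', (s3.trans hP.1.mp).trans hP',
      (h2.1.card_le h.ls hρ hB hVc).trans (hρM.le.trans hθ),
      (hA'.trans h2.1.ab.le).trans h2.1.bp.le, i2,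
      fun y hy => (e2 (h2.1.ab.le (hA' hy))).symm, hx', rfl⟩
  have m2 : χ x ∈ M := hN _ (s3.le m1) (hm.eqv_trans e q)
  have m3 : χ x ∈ V'' := by
    rw [← h4.2]
    exact ⟨m1, m2⟩
  obtain ⟨v, hv, ev⟩ := i1.1.surjOn m3
  have : v = x := i2.1.injOn (h2.1.mp.le hv) hx' ((e3 hv).symm.trans ev)
  exact hV'.le (this ▸ hv)

end Vale.Agent.P307C
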